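import Vale.Agent.HNNAlg.Defs

/-!
The stable letter acting on the tree module, and the equivariant maps.
-/

namespace Vale.Agent.HNNAlg

open Module

universe u v w

variable {D : Type u} [DivisionRing D] (P : Datum D) {I : Type v}

namespace Datum

/-- The empty word. -/
def nil : P.Word := ⟨[], List.IsChain.nil⟩

open Classical in
/-- The value of `t ^ ε * b_τ` on the word `w`. -/
noncomputable def step (ε : Bool) (τ : P.idx ε) (i : I) : P.Word → P.M I
  | ⟨[], _⟩ => Finsupp.single (i, ⟨[⟨ε, τ⟩], List.IsChain.singleton _⟩) 1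
  | ⟨h :: l, hc⟩ =>
    if hh : τ = P.one ε ∧ h.1 = !ε then Finsupp.single (i, ⟨l, hc.of_cons⟩) (P.bas h.1 h.2)
    else Finsupp.single (i, ⟨⟨ε, τ⟩ :: h :: l, List.isChain_cons_cons.2 ⟨hh, hc⟩⟩) 1

lemma step_cancel {ε : Bool} {i : I} (h : P.Letter) (l : List P.Letter)
    (hc : (h :: l).IsChain P.Ok) (hh : h.1 = !ε) :
    P.step ε (P.one ε) i ⟨h :: l, hc⟩ = Finsupp.single (i, ⟨l, hc.of_cons⟩) (P.bas h.1 h.2) := by
  simp [step, hh]

lemma step_cons {ε : Bool} {τ : P.idx ε} {i : I} (w : P.Word)
    (hw : (⟨ε, τ⟩ :: w.1 : List P.Letter).IsChain P.Ok) :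
    P.step ε τ i w = Finsupp.single (i, ⟨⟨ε, τ⟩ :: w.1, hw⟩) 1 := by
  obtain ⟨_ | ⟨h, l⟩, hc⟩ := w
  · rfl
  · have := (List.isChain_cons_cons.1 hw).1
    simp only [Ok] at this
    simp only [step, dif_neg this]

/-- Either the letter can be prepended, or it cancels the first letter. -/
lemma cons_or_cancel (ε : Bool) (τ : P.idx ε) (w : P.Word) :
    (⟨ε, τ⟩ :: w.1 : List P.Letter).IsChain P.Ok ∨
      τ = P.one ε ∧ ∃ h l, w.1 = h :: l ∧ h.1 = !ε := by
  obtain ⟨_ | ⟨h, l⟩, hc⟩ := w
  · exact Or.inl (List.IsChain.singleton _)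
  · by_cases hh : τ = P.one ε ∧ h.1 = !ε
    · exact Or.inr ⟨hh.1, h, l, rfl, hh.2⟩
    · exact Or.inl (List.isChain_cons_cons.2 ⟨hh, hc⟩)

/-- The semilinear action of `t ^ ε`. -/
noncomputable def T (ε : Bool) : P.M I →+ P.M I :=
  Finsupp.liftAddHom fun p : I × P.Word =>
    ((Finsupp.liftAddHom fun τ : P.idx ε =>
      ((smulAddHom D (P.M I)).flip (P.step ε τ p.1 p.2)).comp
        ((P.E (!ε)).subtype.toAddMonoidHom.comp (P.σ ε).toRingHom.toAddMonoidHom))).comp
      (P.bas ε).repr.toLinearMap.toAddMonoidHom

lemma T_single (ε : Bool) (p : I × P.Word) (d : D) :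
    P.T ε (Finsupp.single p d) =
      ((P.bas ε).repr d).sum fun τ e => ((P.σ ε e : P.E (!ε)) : D) • P.step ε τ p.1 p.2 := by
  rw [T, Finsupp.liftAddHom_apply_single]
  rfl

lemma T_single_bas (ε : Bool) (τ : P.idx ε) (i : I) (w : P.Word) :
    P.T ε (Finsupp.single (i, w) (P.bas ε τ)) = P.step ε τ i w := by
  rw [T_single, Basis.repr_self, Finsupp.sum_single_index] <;> simp

lemma T_single_one (ε : Bool) (i : I) (w : P.Word) :
    P.T ε (Finsupp.single (i, w) 1) = P.step ε (P.one ε) i w := by
  rw [← P.bas_one ε, T_single_bas]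

theorem T_smul (ε : Bool) (e : P.E ε) (m : P.M I) :
    P.T ε ((e : D) • m) = ((P.σ ε e : P.E (!ε)) : D) • P.T ε m := by
  induction m using Finsupp.induction_linear with
  | zero => simp
  | add x y hx hy => rw [smul_add, map_add, hx, hy, map_add, smul_add]
  | single p d =>
    rw [Finsupp.smul_single, smul_eq_mul, T_single, T_single,
      show ((e : D) * d) = e • d from rfl, map_smul,
      Finsupp.sum_smul_index' (fun τ => by simp), Finsupp.smul_sum]
    refine Finsupp.sum_congr fun τ _ => ?_
    rw [smul_eq_mul, map_mul, Subfield.coe_mul, mul_smul]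

lemma σ_inv' (ε : Bool) (e : P.E (!ε)) :
    ∃ e₀ : P.E ε, P.σ ε e₀ = e := (P.σ ε).surjective e

theorem T_T (ε : Bool) (m : P.M I) : P.T (!ε) (P.T ε m) = m := by
  suffices ∀ (τ : P.idx ε) (i : I) (w : P.Word),
      P.T (!ε) (P.T ε (Finsupp.single (i, w) (P.bas ε τ))) =
        Finsupp.single (i, w) (P.bas ε τ) by
    induction m using Finsupp.induction_linear with
    | zero => simp
    | add x y hx hy => rw [map_add, map_add, hx, hy]
    | single p d =>
      rw [← (P.bas ε).linearCombination_repr d]
      induction (P.bas ε).repr d using Finsupp.induction_linear with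
      | zero => simp
      | add x y hx hy =>
        rw [map_add, Finsupp.single_add, map_add, map_add, hx, hy]
      | single τ e =>
        obtain ⟨i, w⟩ := p
        rw [Finsupp.linearCombination_single,
          show (e • P.bas ε τ) = (e : D) * P.bas ε τ from rfl, ← smul_eq_mul,
          ← Finsupp.smul_single, T_smul, T_smul, this, P.σ_inv]
  intro τ i w
  rw [T_single_bas]
  rcases P.cons_or_cancel ε τ w with hw | ⟨rfl, h, l, hl, hh⟩
  · rw [P.step_cons w hw, T_single_one,
      P.step_cancel ⟨ε, τ⟩ w.1 hw (by simp)]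
  · obtain ⟨wl, hc⟩ := w
    subst hl
    obtain ⟨δ, τ'⟩ := h
    simp only at hh
    subst hh
    rw [P.step_cancel _ l hc rfl, T_single_bas, P.step_cons ⟨l, hc.of_cons⟩ hc, P.bas_one]

lemma T_T' (ε : Bool) (m : P.M I) : P.T ε (P.T (!ε) m) = m := by
  cases ε
  · exact P.T_T true m
  · exact P.T_T false m

/-- Maps commuting with the division ring and with the stable letter. -/
structure Equiv' (I : Type v) (J : Type w) where
  map : P.M I →ₗ[D] P.M J
  map_T : ∀ ε m, map (P.T ε m) = P.T ε (map m)

/-- The action of a word. -/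
noncomputable def eval {J : Type w} : List P.Letter → P.M J → P.M J
  | [], m => m
  | h :: l, m => P.T h.1 (P.bas h.1 h.2 • eval l m)

/-- The equivariant map with given values on the generators. -/
noncomputable def ext {J : Type w} (b : I → P.M J) : P.Equiv' I J where
  map := Finsupp.linearCombination D fun p : I × P.Word => P.eval p.2.1 (b p.1)
  map_T := by
    intro ε m
    induction m using Finsupp.induction_linear with
    | zero => simp
    | add x y hx hy => simp only [map_add, hx, hy]
    | single p d =>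
      obtain ⟨i, w⟩ := p
      rw [← (P.bas ε).linearCombination_repr d]
      induction (P.bas ε).repr d using Finsupp.induction_linear with
      | zero => simp
      | add x y hx hy =>
        simp only [map_add, Finsupp.single_add, hx, hy]
      | single τ e =>
        rw [Finsupp.linearCombination_single,
          show (e • P.bas ε τ) = (e : D) * P.bas ε τ from rfl, ← smul_eq_mul,
          ← Finsupp.smul_single, T_smul, map_smul, map_smul, T_smul, T_single_bas]
        congr 1
        rcases P.cons_or_cancel ε τ w with hw | ⟨rfl, h, l, hl, hh⟩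
        · rw [P.step_cons w hw, Finsupp.linearCombination_single,
            Finsupp.linearCombination_single, one_smul]
          rfl
        · obtain ⟨wl, hc⟩ := w
          subst hl
          obtain ⟨δ, τ'⟩ := h
          simp only at hh
          subst hh
          rw [P.step_cancel _ l hc rfl, Finsupp.linearCombination_single,
            Finsupp.linearCombination_single, P.bas_one, one_smul]
          show _ = P.T ε (P.eval (⟨!ε, τ'⟩ :: l) (b i))
          rw [eval, T_T']

theorem ext_nil {J : Type w} (b : I → P.M J) (i : I) :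
    (P.ext b).map (Finsupp.single (i, P.nil) 1) = b i := by
  simp [ext, nil, eval]

end Datum

end Vale.Agent.HNNAlg
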