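import Mathlib

/-!
Amalgamated products of free groups embed in HNN extensions of free groups.
-/

namespace Vale.Agent.HNNAlg

open Monoid

universe u v

/-- A free product of free groups is free. -/
theorem isFreeGroup_coprodI {ι : Type} (G : ι → Type v) [∀ i, Group (G i)]
    [∀ i, IsFreeGroup (G i)] : IsFreeGroup (CoprodI G) := by
  refine IsFreeGroup.ofUniqueLift
    (X := Σ i, IsFreeGroup.Generators (G i)) (fun x => CoprodI.of (IsFreeGroup.of x.2)) ?_
  intro K _ f
  refine ⟨CoprodI.lift fun i => IsFreeGroup.lift fun x => f ⟨i, x⟩, fun x => by simp, ?_⟩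
  intro g hg
  refine CoprodI.ext_hom _ _ fun i => IsFreeGroup.ext_hom fun x => ?_
  simpa using hg ⟨i, x⟩

section

variable {G : Bool → Type v} [∀ i, Group (G i)] {C : Type v} [Group C] (φ : ∀ i, C →* G i)
  (hφ : ∀ i, Function.Injective (φ i))

/-- The image of the amalgamated group in one factor of the free product. -/
def side (i : Bool) : Subgroup (CoprodI G) := ((CoprodI.of (i := i)).comp (φ i)).range

theorem of_comp_injective {φ : ∀ i, C →* G i} (hφ : ∀ i, Function.Injective (φ i)) (i : Bool) :
    Function.Injective ((CoprodI.of (i := i)).comp (φ i)) :=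
  (CoprodI.of_injective i).comp (hφ i)

/-- The isomorphism between the two images. -/
noncomputable def sideEquiv : side φ false ≃* side φ true :=
  (MonoidHom.ofInjective (of_comp_injective hφ false)).symm.trans
    (MonoidHom.ofInjective (of_comp_injective hφ true))

theorem of_mem_side {i : Bool} {g : G i} (h : CoprodI.of g ∈ side φ i) : g ∈ (φ i).range := by
  obtain ⟨c, hc⟩ := h
  exact ⟨c, CoprodI.of_injective i hc⟩

theorem t_conj (c : C) :
    HNNExtension.t (φ := sideEquiv φ hφ) * HNNExtension.of (CoprodI.of (φ false c)) *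
      HNNExtension.t⁻¹ = HNNExtension.of (CoprodI.of (φ true c)) := by
  have h := HNNExtension.equiv_eq_conj (φ := sideEquiv φ hφ)
    (MonoidHom.ofInjective (of_comp_injective hφ false) c)
  have e : sideEquiv φ hφ (MonoidHom.ofInjective (of_comp_injective hφ false) c) =
      MonoidHom.ofInjective (of_comp_injective hφ true) c := by
    exact congrArg (MonoidHom.ofInjective (of_comp_injective hφ true))
      ((MonoidHom.ofInjective (of_comp_injective hφ false)).symm_apply_apply c)
  rw [e] at h
  exact h.symm

/-- The map on the two factors. -/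
noncomputable def factorMap :
    ∀ i, G i →* HNNExtension (CoprodI G) (side φ false) (side φ true) (sideEquiv φ hφ)
  | false => (MulAut.conj (HNNExtension.t (φ := sideEquiv φ hφ))).toMonoidHom.comp
      (HNNExtension.of.comp CoprodI.of)
  | true => HNNExtension.of.comp CoprodI.of

/-- The embedding of the amalgam into the HNN extension. -/
noncomputable def amalgamMap :
    PushoutI φ →* HNNExtension (CoprodI G) (side φ false) (side φ true) (sideEquiv φ hφ) :=
  PushoutI.lift (factorMap φ hφ) ((HNNExtension.of.comp CoprodI.of).comp (φ true)) fun i => by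
    cases i
    · ext c
      exact t_conj φ hφ c
    · rfl

/-- A reduced word of the amalgam gives a reduced word of the HNN extension. -/
theorem exists_reducedWord (w : CoprodI.Word G) (hw : PushoutI.Reduced φ w) :
    ∃ r : HNNExtension.NormalWord.ReducedWord (CoprodI G) (side φ false) (side φ true),
      r.prod (sideEquiv φ hφ) = amalgamMap φ hφ (PushoutI.ofCoprodI w.prod) ∧
      (w.fstIdx ≠ some true → r.head = 1) ∧
      (w.fstIdx = some true → ∃ g, g ∉ (φ true).range ∧ r.head = CoprodI.of g) ∧
      (w = CoprodI.Word.empty → r.toList = []) ∧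
      (∀ x ∈ r.toList.head?, x.1 = 1) ∧
      (w.fstIdx = some false → r.toList ≠ []) := by
  classical
  induction w using CoprodI.Word.consRecOn with
  | empty =>
    exact ⟨HNNExtension.NormalWord.ReducedWord.empty _ _ _,
      by simp [HNNExtension.NormalWord.ReducedWord.prod], fun _ => rfl,
      fun h => by simp [CoprodI.Word.fstIdx] at h, fun _ => rfl, by simp,
      fun h => by simp [CoprodI.Word.fstIdx] at h⟩
  | cons i g w hIdx hg1 ih =>
    obtain ⟨r, hr, hh, hh', hnil, hfst, -⟩ := ih fun x hx => hw x (List.mem_cons_of_mem _ hx)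
    have hg : g ∉ (φ i).range := hw ⟨i, g⟩ List.mem_cons_self
    cases i with
    | true =>
      refine ⟨⟨CoprodI.of g, r.toList, r.chain⟩, ?_, fun h => ?_, fun _ => ⟨g, hg, rfl⟩,
        fun h => ?_, hfst, fun h => ?_⟩
      · rw [CoprodI.Word.prod_cons, map_mul, map_mul, ← hr]
        simp [HNNExtension.NormalWord.ReducedWord.prod, hh hIdx, amalgamMap, factorMap]
      · exact absurd (by simp [CoprodI.Word.fstIdx, CoprodI.Word.cons]) h
      · exact absurd (congrArg CoprodI.Word.toList h) (by simp [CoprodI.Word.cons])
      · simp [CoprodI.Word.fstIdx, CoprodI.Word.cons] at h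
    | false =>
      have hc : ((1 : ℤˣ), CoprodI.of g) :: (-1, r.head) :: r.toList |>.IsChain
          fun a b => a.2 ∈ HNNExtension.toSubgroup (side φ false) (side φ true) a.1 → a.1 = b.1 := by
        refine List.isChain_cons_cons.2 ⟨fun h => absurd (of_mem_side φ h) hg, ?_⟩
        refine r.chain.cons fun x hx h => ?_
        have hne : w ≠ CoprodI.Word.empty := fun e => by simp [hnil e] at hx
        have ht : w.fstIdx = some true := by
          cases hwi : w.fstIdx with
          | none =>
            refine absurd (CoprodI.Word.ext ?_) hne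
            simpa [CoprodI.Word.fstIdx] using hwi
          | some b =>
            cases b
            · exact absurd hwi hIdx
            · rfl
        obtain ⟨g', hg', e⟩ := hh' ht
        rw [e] at h
        exact absurd (of_mem_side φ h) hg'
      refine ⟨⟨1, _, hc⟩, ?_, fun _ => rfl, fun h => ?_, fun h => ?_, by simp, fun _ => by simp⟩
      · rw [CoprodI.Word.prod_cons, map_mul, map_mul, ← hr]
        simp [HNNExtension.NormalWord.ReducedWord.prod, amalgamMap, factorMap, mul_assoc]
      · simp [CoprodI.Word.fstIdx, CoprodI.Word.cons] at h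
      · exact absurd (congrArg CoprodI.Word.toList h) (by simp [CoprodI.Word.cons])

theorem amalgamMap_injective : Function.Injective (amalgamMap φ hφ) := by
  classical
  obtain ⟨d⟩ := PushoutI.NormalWord.transversal_nonempty φ hφ
  refine (injective_iff_map_eq_one _).2 fun x hx => ?_
  obtain ⟨w, rfl⟩ : ∃ w : PushoutI.NormalWord d, w.prod = x :=
    ⟨_, PushoutI.NormalWord.equiv.symm_apply_apply x⟩
  have hred : PushoutI.Reduced φ w.toWord := by
    intro l hl hl'
    refine w.ne_one l hl ?_
    have := (d.compl l.1).1 (a₁ := (⟨l.2, hl'⟩, ⟨1, d.one_mem l.1⟩))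
      (a₂ := (1, ⟨l.2, w.normalized l.1 l.2 hl⟩)) (by simp)
    exact (Subtype.ext_iff.1 (Prod.ext_iff.1 this).2).symm
  obtain ⟨r, hr, -, hh', -, -, hne⟩ := exists_reducedWord φ hφ w.toWord hred
  rw [PushoutI.NormalWord.prod, map_mul, ← hr] at hx
  have hbase : amalgamMap φ hφ (PushoutI.base φ w.head) =
      HNNExtension.of (CoprodI.of (φ true w.head)) := by simp [amalgamMap]
  rw [hbase, mul_eq_one_iff_eq_inv'] at hx
  have hl : r.toList = [] :=
    HNNExtension.ReducedWord.toList_eq_nil_of_mem_of_range _ r
      (hx ▸ inv_mem (MonoidHom.mem_range.2 ⟨_, rfl⟩))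
  have hrp : r.prod (sideEquiv φ hφ) = HNNExtension.of r.head := by
    simp [HNNExtension.NormalWord.ReducedWord.prod, hl]
  have he : w.toWord = CoprodI.Word.empty := by
    cases hwi : w.toWord.fstIdx with
    | none => exact CoprodI.Word.ext (by simpa [CoprodI.Word.fstIdx] using hwi)
    | some b =>
      cases b
      · exact absurd hl (hne hwi)
      · obtain ⟨g, hg, e⟩ := hh' hwi
        rw [hrp, e, ← map_inv, ← map_inv] at hx
        refine absurd ⟨w.head⁻¹, ?_⟩ hg
        rw [map_inv]
        exact (CoprodI.of_injective true (HNNExtension.of_injective _ hx)).symm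
  rw [← hbase, hr, he] at hx
  have h1 : w.head = 1 := by
    have h2 : (1 : HNNExtension (CoprodI G) (side φ false) (side φ true) (sideEquiv φ hφ)) =
        (HNNExtension.of (CoprodI.of (φ true w.head)))⁻¹ := by simpa [hbase] using hx
    rw [eq_comm, inv_eq_one] at h2
    have h3 := HNNExtension.of_injective (φ := sideEquiv φ hφ) (h2.trans (map_one _).symm)
    exact hφ true ((CoprodI.of_injective true (h3.trans (map_one _).symm)).trans (map_one _).symm)
  rw [PushoutI.NormalWord.prod, he, h1]
  simp

end

/-- An amalgam of two free groups embeds in an HNN extension of a free group. -/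
theorem exists_embedding (G : Bool → Type v) [∀ i, Group (G i)] [∀ i, IsFreeGroup (G i)]
    (C : Type v) [Group C] (φ : ∀ i, C →* G i) (hφ : ∀ i, Function.Injective (φ i)) :
    ∃ (H : Type v) (_ : Group H) (_ : IsFreeGroup H) (A B : Subgroup H) (ψ : A ≃* B)
      (f : PushoutI φ →* HNNExtension H A B ψ), Function.Injective f :=
  ⟨CoprodI G, inferInstance, isFreeGroup_coprodI G, side φ false, side φ true, sideEquiv φ hφ,
    amalgamMap φ hφ, amalgamMap_injective φ hφ⟩

end Vale.Agent.HNNAlg
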