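import Vale.Agent.HNNAlg.Main
import Vale.Agent.HNNAlg.Amalgam

/-!
Amalgamated products of free groups: group algebras are domains and stably finite.
-/

namespace Vale.Agent.HNNAlg

open Monoid

universe u v

lemma mapDomain_injective (K : Type u) [Field K] {G G' : Type v} [Group G] [Group G']
    (f : G →* G') (hf : Function.Injective f) :
    Function.Injective (MonoidAlgebra.mapDomainRingHom K f) :=
  MonoidAlgebra.mapDomain_injective hf

theorem main_amalgam (K : Type u) [Field K] (G : Bool → Type v) [∀ i, Group (G i)]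
    [∀ i, IsFreeGroup (G i)] (C : Type v) [Group C] (φ : ∀ i, C →* G i)
    (hφ : ∀ i, Function.Injective (φ i)) :
    NoZeroDivisors (MonoidAlgebra K (PushoutI φ)) ∧
      IsStablyFiniteRing (MonoidAlgebra K (PushoutI φ)) := by
  obtain ⟨H, hg, hfree, A, B, ψ, f, hf⟩ := exists_embedding G C φ hφ
  obtain ⟨hd, hs⟩ := main_hnn K H A B ψ
  have hinj := mapDomain_injective K f hf
  refine ⟨hinj.noZeroDivisors _ (map_zero _) (map_mul _), ?_⟩
  refine ⟨fun n => ⟨fun {a b} hab => ?_⟩⟩
  let g := (MonoidAlgebra.mapDomainRingHom K f).mapMatrix (m := Fin n)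
  have hgi : Function.Injective g := fun x y h => Matrix.ext fun i j =>
    hinj (congrFun (congrFun h i) j)
  apply hgi
  rw [map_mul, map_one]
  exact mul_eq_one_symm (by rw [← map_mul, hab, map_one])

end Vale.Agent.HNNAlg
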