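import Mathlib

/-!
HNN rings over a division ring, given by two subfields and an isomorphism between them:
the tree module `M D I` on which the division ring and the stable letter act.
-/

namespace Vale.Agent.HNNAlg

open Module

universe u v

/-- Two subfields of a division ring, identified by `σ`, with chosen left bases containing `1`.
`σ ε` is the conjugation by `t ^ (±1)`: `t ^ ε * e = σ ε e * t ^ ε` for `e ∈ E ε`. -/
structure Datum (D : Type u) [DivisionRing D] where
  E : Bool → Subfield D
  σ : ∀ ε, E ε ≃+* E (!ε)
  σ_inv : ∀ (ε : Bool) (x : E ε), ((σ (!ε) (σ ε x) : E (!!ε)) : D) = x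
  idx : Bool → Type u
  bas : ∀ ε, Basis (idx ε) (E ε) D
  one : ∀ ε, idx ε
  bas_one : ∀ ε, bas ε (one ε) = 1

variable {D : Type u} [DivisionRing D]

/-- A letter `t ^ ε * b` with `b` a basis vector over `E ε`. -/
abbrev Datum.Letter (P : Datum D) : Type u := Σ ε : Bool, P.idx ε

/-- `a` may precede `b`: it is not a pair `t ^ ε * 1 * t ^ (-ε)`. -/
def Datum.Ok (P : Datum D) (a b : P.Letter) : Prop := ¬ (a.2 = P.one a.1 ∧ b.1 = !a.1)

/-- Reduced words. -/
abbrev Datum.Word (P : Datum D) : Type u := { w : List P.Letter // w.IsChain P.Ok }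

/-- The free module over the reduced words. -/
abbrev Datum.M (P : Datum D) (I : Type v) : Type max u v := (I × P.Word) →₀ D

end Vale.Agent.HNNAlg
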