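import Vale.Agent.HNNAlg.Shape

/-!
Degree reduction: surjective equivariant endomorphisms of finite rank tree modules are injective.
-/

namespace Vale.Agent.HNNAlg

open Module

universe u v w

variable {D : Type u} [DivisionRing D]

/-- Vectors over a subfield which are independent over it stay independent over the division ring,
and a combination with values in the subfield has coefficients in it. -/
theorem coeff_of_independent {E : Subfield D} {α β : Type*} [Fintype α] (y : α → β →₀ E)
    (hy : LinearIndependent E y) (c : α → D) :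
    ((∀ q, ∑ a, c a * (y a q : D) = 0) → c = 0) ∧
      ((∀ q, ∑ a, c a * (y a q : D) ∈ E) → ∀ a, c a ∈ E) := by
  classical
  let f : (α →₀ E) →ₗ[E] (β →₀ E) := Finsupp.linearCombination E y
  obtain ⟨g, hg⟩ := f.exists_leftInverse_of_injective
    (LinearMap.ker_eq_bot.2 hy.finsuppLinearCombination_injective)
  set s : Finset β := Finset.univ.biUnion fun a => (y a).support
  have hexp : ∀ a b, ((if a = b then 1 else 0 : E) : D) =
      ∑ q ∈ s, (y a q : D) * (g (Finsupp.single q 1) b : D) := by
    intro a b
    have h1 : g (y a) = Finsupp.single a 1 := by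
      have := LinearMap.congr_fun hg (Finsupp.single a 1)
      simpa [f] using this
    have h2 : y a = ∑ q ∈ s, y a q • Finsupp.single q 1 := by
      ext q
      simp only [Finsupp.finsetSum_apply, Finsupp.smul_apply, Finsupp.single_apply, smul_eq_mul,
        mul_ite, mul_one, mul_zero, Finset.sum_ite_eq']
      split_ifs with hq
      · rfl
      · rw [Finsupp.notMem_support_iff.1 fun h =>
          hq (Finset.mem_biUnion.2 ⟨a, Finset.mem_univ _, h⟩)]
    rw [h2, map_sum] at h1
    simp only [map_smul] at h1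
    have h3 := congrArg (fun m : α →₀ E => ((m b : E) : D)) h1
    simp only [Finsupp.finsetSum_apply, Finsupp.smul_apply, smul_eq_mul,
      AddSubmonoidClass.coe_finsetSum, Subfield.coe_mul, Finsupp.single_apply] at h3
    exact h3.symm
  have hc : ∀ b, c b = ∑ q ∈ s, (∑ a, c a * (y a q : D)) * (g (Finsupp.single q 1) b : D) := by
    intro b
    simp_rw [Finset.sum_mul, mul_assoc]
    rw [Finset.sum_comm]
    simp_rw [← Finset.mul_sum, ← hexp]
    rw [Finset.sum_eq_single b (fun a _ ha => by simp [ha]) (by simp)]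
    simp
  refine ⟨fun h => funext fun b => ?_, fun h b => ?_⟩
  · rw [hc b]; simp [h]
  · rw [hc b]
    exact sum_mem fun q _ => mul_mem (h q) (SetLike.coe_mem _)

namespace Datum

variable {P : Datum D} {I : Type v} {J : Type w}

/-- Weight of a generator: vertex generators of degree `d` weigh `2 d + 1`, edge ones `2 d`. -/
def gWeight (d : ℕ) (f : Option Bool) : ℕ := if f = none then 2 * d + 1 else 2 * d

namespace Shape

variable [Fintype I] {b : I → P.M J} (S : P.Shape b)

/-- Total weight. -/
def weight : ℕ := ∑ i, gWeight (S.d i) (S.f i)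

/-- No shape of a related tuple weighs less, and no related tuple has a zero entry. -/
def Minimal : Prop :=
  (∀ b', Related b b' → ∀ S' : P.Shape b', S.weight ≤ S'.weight) ∧
    ∀ b', Related b b' → ∀ i, b' i ≠ 0

/-- Injectivity of the top part at level `k`. -/
def TopInj (k : ℕ) : Prop :=
  ∀ x : P.M I, S.At k x →
    (∀ q : J × P.Word, q.2.1.length = k → (P.ext b).map x q = 0) → x = 0

/-- A pure top at level `k` comes from a formally pure element. -/
def TopPure (k : ℕ) : Prop :=
  ∀ (ε : Bool) (x : P.M I), S.At k x → P.Pure k ε ((P.ext b).map x) →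
    ∀ p, x p ≠ 0 → S.dir p = some (!ε) ∧ x p ∈ P.E ε

lemma move [DecidableEq I] (h : S.Minimal) {x : P.M I} {i : I} {w : P.Word}
    (hw : w.1 = [] ∨ ∃ ε, w.1 = [⟨ε, P.one ε⟩]) (hx : x (i, w) ≠ 0)
    (huniq : ∀ p, x p ≠ 0 → p.1 = i → p = (i, w)) (d : ℕ) (f : Option Bool)
    (hbelow : P.Below d ((P.ext b).map x))
    (hpos : ∀ ε, f = some ε → 1 ≤ d ∧ P.Pure d ε ((P.ext b).map x)) :
    gWeight (S.d i) (S.f i) ≤ gWeight d f := by
  classical
  let S' : P.Shape (Function.update b i ((P.ext b).map x)) :=
    { d := Function.update S.d i d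
      f := Function.update S.f i f
      below := fun j => by
        by_cases hj : j = i
        · subst hj; simpa using hbelow
        · simpa [hj] using S.below j
      pos := fun j ε => by
        by_cases hj : j = i
        · subst hj; simpa using fun h => (hpos ε h).1
        · simpa [hj] using S.pos j ε
      isPure := fun j ε => by
        by_cases hj : j = i
        · subst hj; simpa using fun h => (hpos ε h).2
        · simpa [hj] using S.isPure j ε }
  by_contra hlt
  rw [not_le] at hlt
  have := h.1 _ (related_update b x i w hw hx huniq) S'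
  have hlt' : S'.weight < S.weight := Finset.sum_lt_sum
    (fun j _ => by by_cases hj : j = i
                   · subst hj; simpa [S'] using hlt.le
                   · simp [S', hj])
    ⟨i, Finset.mem_univ _, by simpa [S'] using hlt⟩
  omega

/-- A relation of top parts at level `k` gives a generator of smaller weight. -/
lemma no_drop [DecidableEq I] (h : S.Minimal) {x : P.M I} {i : I} {w : P.Word} {k : ℕ}
    (hw : w.1 = [] ∨ ∃ ε, w.1 = [⟨ε, P.one ε⟩]) (hx : x (i, w) ≠ 0)
    (huniq : ∀ p, x p ≠ 0 → p.1 = i → p = (i, w)) (hk : S.d i = k) (hat : S.At k x)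
    (htop : ∀ q : J × P.Word, q.2.1.length = k → (P.ext b).map x q = 0) : False := by
  have hb : P.Below (k - 1) ((P.ext b).map x) :=
    below_sub_one (S.below_of_le fun p hp => (hat p hp).le) htop
  rcases Nat.eq_zero_or_pos k with rfl | hpos
  · refine h.2 _ (related_update b x i w hw hx huniq) i ?_
    rw [Function.update_self]
    ext q
    by_contra hne
    exact hne (htop q (Nat.le_zero.1 (hb q hne)))
  · have h1 := S.move h hw hx huniq (k - 1) none hb (by simp)
    simp only [gWeight, hk] at h1
    split_ifs at h1 <;> omega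

lemma dir_block {k : ℕ} {ε : Bool} {p : I × P.Word} (hk : S.lvl p = k) (hd : S.dir p = some ε)
    {q : J × P.Word} (hq : q.2.1.length = k) :
    (bv b p q ≠ 0 → P.head q = some ε) ∧ bv b p q ∈ P.E (!ε) := by
  obtain ⟨h1, h2⟩ := (S.bv_spec p).2 ε hd q (by rw [hk, hq])
  exact ⟨fun h => by rw [h1 h, Bool.not_not], h2⟩

lemma prev_level {k : ℕ} {ε : Bool} (hpure : 0 < k → S.TopPure (k - 1)) {x : P.M I}
    (hat : S.At k x)
    (hdir : ∀ p, x p ≠ 0 → ∃ (τ : P.idx ε) (w : P.Word)
      (hw : (⟨ε, τ⟩ :: w.1 : List P.Letter).IsChain P.Ok),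
      p = (p.1, ⟨⟨ε, τ⟩ :: w.1, hw⟩) ∧ S.lvl p = S.lvl (p.1, w) + 1)
    (hcoef : ∀ p, x p ∈ P.E (!ε))
    (htop : ∀ q : J × P.Word, q.2.1.length = k → (P.ext b).map x q = 0) : x = 0 := by
  classical
  by_contra hx0
  obtain ⟨p0, hp0⟩ : ∃ p, x p ≠ 0 := not_forall.1 fun h => hx0 (Finsupp.ext h)
  have hk : 0 < k := by
    obtain ⟨_, _, _, _, h2⟩ := hdir p0 hp0
    rw [hat p0 hp0] at h2
    omega
  set z := P.T (!ε) x with hz
  have hzat : S.At (k - 1) z := by
    intro q hq
    rw [hz, ← Finsupp.sum_single x, map_finsuppSum, Finsupp.sum, Finsupp.finsetSum_apply] at hq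
    obtain ⟨p, hp, hpq⟩ := Finset.exists_ne_zero_of_sum_ne_zero hq
    have hp' := Finsupp.mem_support_iff.1 hp
    obtain ⟨τ, w, hw, hpe, hlvl⟩ := hdir p hp'
    rw [show Finsupp.single p (x p) = (x p) • (Finsupp.single p (1 : D) : P.M I) by simp,
      show x p = ((⟨x p, hcoef p⟩ : P.E (!ε)) : D) from rfl, T_smul, hpe, single_cons p.1 ε τ w hw,
      T_T, Finsupp.smul_apply, Finsupp.smul_apply] at hpq
    have : q = (p.1, w) := by
      by_contra hne
      simp [Finsupp.single_eq_of_ne hne] at hpq
    rw [this]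
    have := hat p hp'
    omega
  have hxz : P.T ε z = x := T_T' P ε x
  have hzb : P.Below (k - 1) ((P.ext b).map z) := S.below_of_le fun p hp => (hzat p hp).le
  have hTzb : P.Below (k - 1) (P.T ε ((P.ext b).map z)) := by
    rw [← (P.ext b).map_T, hxz]
    exact below_sub_one (S.below_of_le fun p hp => (hat p hp).le) htop
  have hzp := hpure hk ε z hzat ((pure_iff hzb).2 hTzb)
  have hlow : ∀ q, P.T ε z q ≠ 0 → S.lvl q ≤ k - 1 := by
    intro q hq
    rw [← Finsupp.sum_single z, map_finsuppSum, Finsupp.sum, Finsupp.finsetSum_apply] at hq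
    obtain ⟨p, hp, hpq⟩ := Finset.exists_ne_zero_of_sum_ne_zero hq
    have hp' := Finsupp.mem_support_iff.1 hp
    obtain ⟨hd, he⟩ := hzp p hp'
    have hl := hzat p hp'
    rw [show Finsupp.single p (z p) = (z p) • (Finsupp.single p (1 : D) : P.M I) by simp,
      show z p = ((⟨z p, he⟩ : P.E ε) : D) from rfl, T_smul, Finsupp.smul_apply] at hpq
    have hne : P.T ε (Finsupp.single p 1) q ≠ 0 := fun h => hpq (by rw [h, smul_zero])
    obtain ⟨i, ⟨l, hl'⟩⟩ := p
    rw [T_single_one] at hne
    cases l with
    | nil =>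
      simp only [dir, Option.map_eq_some_iff] at hd
      obtain ⟨a, ha, hae⟩ := hd
      obtain rfl : a = ε := by simpa using hae
      rw [P.step_cons _ (List.IsChain.singleton _), Finsupp.single_apply] at hne
      split_ifs at hne with he'
      · rw [← he', S.lvl_edge i a ha (List.IsChain.singleton _)]
        rw [show S.lvl (i, ⟨[], hl'⟩) = S.d i from S.lvl_nil i] at hl
        omega
      · exact absurd rfl hne
    | cons a l =>
      simp [dir] at hd
      rw [P.step_cancel a l hl' hd, Finsupp.single_apply] at hne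
      split_ifs at hne with he'
      · rw [← he']
        obtain ⟨δ, τ⟩ := a
        by_cases hc : l = [] ∧ S.f i = some δ ∧ τ = P.one δ
        · obtain ⟨rfl, hf, rfl⟩ := hc
          rw [show S.lvl (i, ⟨[⟨δ, P.one δ⟩], hl'⟩) = S.d i from S.lvl_edge i δ hf hl'] at hl
          rw [show S.lvl (i, ⟨[], hl'.of_cons⟩) = S.d i from S.lvl_nil i]
          omega
        · rw [show S.lvl (i, ⟨⟨δ, τ⟩ :: l, hl'⟩) = S.lvl (i, ⟨l, hl'.of_cons⟩) + 1 from
            S.lvl_cons i δ τ ⟨l, hl'.of_cons⟩ hl' hc] at hl
          omega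
      · exact absurd rfl hne
  have := hlow p0 (by rw [hxz]; exact hp0)
  rw [hat p0 hp0] at this
  omega

lemma block [DecidableEq I] (h : S.Minimal) {k : ℕ} (hpure : 0 < k → S.TopPure (k - 1))
    {ε : Bool} {x : P.M I} (hat : S.At k x) (hdir : ∀ p, x p ≠ 0 → S.dir p = some ε) :
    ((∀ q : J × P.Word, q.2.1.length = k → (P.ext b).map x q = 0) → x = 0) ∧
    ((∀ q : J × P.Word, q.2.1.length = k → (P.ext b).map x q ∈ P.E (!ε)) →
      ∀ p, x p ∈ P.E (!ε)) := by
  classical
  set s := x.support
  have hmem : ∀ (a : s) (q : J × P.Word),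
      (if q.2.1.length = k then bv b a.1 q else 0) ∈ P.E (!ε) := fun a q => by
    have ha := Finsupp.mem_support_iff.1 a.2
    split_ifs with hq
    · exact (S.dir_block (hat _ ha) (hdir _ ha) hq).2
    · exact zero_mem _
  let y : s → (J × P.Word) →₀ P.E (!ε) := fun a =>
    Finsupp.onFinset (bv b a.1).support (fun q => ⟨_, hmem a q⟩) (fun q hq => by
      rw [Finsupp.mem_support_iff]
      intro h0
      apply hq
      ext
      simp [h0])
  have hy : LinearIndependent (P.E (!ε)) y := by
    rw [Fintype.linearIndependent_iff]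
    intro g hg
    set x' : P.M I := ∑ a, Finsupp.single a.1 (g a : D) with hx'
    have hval : ∀ a : s, x' a.1 = (g a : D) := fun a => by
      rw [hx', Finsupp.finsetSum_apply, Finset.sum_eq_single a (fun c _ hc => Finsupp.single_eq_of_ne
        fun h => hc (Subtype.ext h.symm)) (by simp), Finsupp.single_eq_same]
    have hsupp : ∀ p, x' p ≠ 0 → p ∈ s := fun p hp => by
      rw [hx', Finsupp.finsetSum_apply] at hp
      obtain ⟨a, -, ha⟩ := Finset.exists_ne_zero_of_sum_ne_zero hp
      rw [Finsupp.single_apply] at ha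
      split_ifs at ha with h
      · exact h ▸ a.2
      · exact absurd rfl ha
    have hat' : S.At k x' := fun p hp => hat p (Finsupp.mem_support_iff.1 (hsupp p hp))
    have htop : ∀ q : J × P.Word, q.2.1.length = k → (P.ext b).map x' q = 0 := by
      intro q hq
      have := congrArg (fun m : (J × P.Word) →₀ P.E (!ε) => ((m q : P.E (!ε)) : D)) hg
      simp only [Finsupp.finsetSum_apply, Finsupp.smul_apply, smul_eq_mul,
        AddSubmonoidClass.coe_finsetSum, Subfield.coe_mul, Finsupp.coe_zero, Pi.zero_apply,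
        ZeroMemClass.coe_zero, y, Finsupp.onFinset_apply, hq, if_true] at this
      rw [hx', map_sum, Finsupp.finsetSum_apply]
      simpa [ext_single] using this
    have hroot : ∀ p, x' p ≠ 0 → ∃ (τ : P.idx ε) (w : P.Word)
        (hw : (⟨ε, τ⟩ :: w.1 : List P.Letter).IsChain P.Ok),
        p = (p.1, ⟨⟨ε, τ⟩ :: w.1, hw⟩) ∧ S.lvl p = S.lvl (p.1, w) + 1 := by
      intro p hp
      have hs := Finsupp.mem_support_iff.1 (hsupp p hp)
      by_contra hc
      have hr : (p.2.1 = [] ∨ ∃ ε, p.2.1 = [⟨ε, P.one ε⟩]) ∧ S.lvl p = S.d p.1 := by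
        rcases S.cases_dir (hdir p hs) with ⟨h1, -, h2⟩ | ⟨h1, -, h2⟩ | h3
        · exact ⟨Or.inl h1, h2⟩
        · exact ⟨Or.inr ⟨ε, h1⟩, h2⟩
        · exact absurd h3 hc
      refine S.no_drop h (i := p.1) (w := p.2) hr.1 hp (fun p' hp' hi => ?_)
        (hr.2.symm.trans (hat p hs)) hat' htop
      have hs' := Finsupp.mem_support_iff.1 (hsupp p' hp')
      exact S.unique_root hi rfl (by rw [hat p' hs', ← hr.2, hat p hs]) hr.2
        (by rw [hdir p' hs', hdir p hs])
    have hcoef : ∀ p, x' p ∈ P.E (!ε) := fun p => by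
      by_cases hp : x' p = 0
      · rw [hp]; exact zero_mem _
      · rw [show x' p = _ from hval ⟨p, hsupp p hp⟩]; exact SetLike.coe_mem _
    have hzero := S.prev_level hpure hat' hroot hcoef htop
    intro a
    have := hval a
    rw [hzero] at this
    exact Subtype.ext this.symm
  have hsum : ∀ q : J × P.Word, ∑ a : s, x a.1 * (y a q : D) =
      if q.2.1.length = k then (P.ext b).map x q else 0 := by
    intro q
    rw [ext_apply, Finsupp.sum, ← Finset.sum_coe_sort x.support]
    split_ifs with hq
    · simp [y, hq, s]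
    · simp [y, hq]
  obtain ⟨h0, hE⟩ := coeff_of_independent y hy (fun a : s => x a.1)
  refine ⟨fun ht => Finsupp.ext fun p => ?_, fun ht p => ?_⟩
  · by_contra hp
    refine hp (congrFun (h0 fun q => ?_) ⟨p, Finsupp.mem_support_iff.2 hp⟩)
    rw [hsum]
    split_ifs with hq
    exacts [ht q hq, rfl]
  · by_cases hp : x p = 0
    · rw [hp]; exact zero_mem _
    · refine hE (fun q => ?_) ⟨p, Finsupp.mem_support_iff.2 hp⟩
      rw [hsum]
      split_ifs with hq
      exacts [ht q hq, zero_mem _]

lemma vertex_root {k : ℕ} {x : P.M I} (hat : S.At k x) {p : I × P.Word} (hp : x p ≠ 0)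
    (hd : S.dir p = none) : p = (p.1, P.nil) ∧ S.f p.1 = none ∧ S.d p.1 = k ∧
      ∀ p', x p' ≠ 0 → p'.1 = p.1 → p' = (p.1, P.nil) := by
  obtain ⟨h1, h2⟩ := S.eq_nil_of_dir_none hd
  have hl : S.d p.1 = k := by rw [← hat p hp]; conv_rhs => rw [h1]; rw [S.lvl_nil]
  refine ⟨h1, h2, hl, fun p' hp' hi => ?_⟩
  rw [← h1]
  refine S.unique_root hi rfl ((hat p' hp').trans hl.symm) ((hat p hp).trans hl.symm) ?_
  rw [hd]
  cases hd' : S.dir p' with
  | none => rfl
  | some ε =>
    rcases S.cases_dir hd' with ⟨-, h3, -⟩ | ⟨-, h3, -⟩ | ⟨τ, w, hw, he, h3⟩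
    · simp [hi, h2] at h3
    · simp [hi, h2] at h3
    · have := S.d_le_lvl (p'.1, w)
      simp only [hi] at this h3
      rw [hat p' hp'] at h3
      omega

/-- The part of a formal vector in one block. -/
noncomputable def part (x : P.M I) (ε : Bool) : P.M I := x.filter fun p => S.dir p = some ε

lemma part_spec {k : ℕ} {x : P.M I} (hat : S.At k x) (hnone : ∀ p, x p ≠ 0 → S.dir p ≠ none)
    (ε : Bool) :
    S.At k (S.part x ε) ∧ (∀ p, S.part x ε p ≠ 0 → S.dir p = some ε) ∧
      ∀ q : J × P.Word, q.2.1.length = k →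
        (P.ext b).map (S.part x ε) q = if P.head q = some ε then (P.ext b).map x q else 0 := by
  classical
  set y := S.part x ε with hy
  have hy1 : ∀ p, y p ≠ 0 → x p ≠ 0 ∧ S.dir p = some ε := fun p hp => by
    simp only [hy, part, Finsupp.filter_apply] at hp
    split_ifs at hp with hd
    exacts [⟨hp, hd⟩, absurd rfl hp]
  refine ⟨fun p hp => hat p (hy1 p hp).1, fun p hp => (hy1 p hp).2, fun q hq => ?_⟩
  split_ifs with hh
  · rw [ext_apply, ext_apply]
    simp only [hy, part, Finsupp.sum, Finsupp.support_filter, Finset.sum_filter, Finsupp.filter_apply]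
    refine Finset.sum_congr rfl fun p hp => ?_
    have hp' := Finsupp.mem_support_iff.1 hp
    split_ifs with hd
    · rfl
    · by_cases hv : bv b p q = 0
      · simp [hv]
      · obtain ⟨δ, hδ⟩ := Option.ne_none_iff_exists'.1 (hnone p hp')
        have := (S.dir_block (hat p hp') hδ hq).1 hv
        exact absurd (hδ.trans (this.symm.trans hh)) hd
  · rw [ext_apply]
    refine Finset.sum_eq_zero fun p hp => ?_
    obtain ⟨hx, hd⟩ := hy1 p (Finsupp.mem_support_iff.1 hp)
    have : bv b p q = 0 := by_contra fun hv => hh ((S.dir_block (hat p hx) hd hq).1 hv)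
    simp [this]

lemma level_step [DecidableEq I] (h : S.Minimal) (k : ℕ) (hpure : 0 < k → S.TopPure (k - 1)) :
    S.TopInj k ∧ S.TopPure k := by
  classical
  have hinj : S.TopInj k := by
    intro x hat htop
    by_cases hnone : ∀ p, x p ≠ 0 → S.dir p ≠ none
    · ext p
      by_contra hp
      obtain ⟨ε, hε⟩ := Option.ne_none_iff_exists'.1 (hnone p hp)
      obtain ⟨h1, h2, h3⟩ := S.part_spec hat hnone ε
      have := congrFun (congrArg DFunLike.coe ((S.block h hpure h1 h2).1 fun q hq => by
        rw [h3 q hq]; split_ifs <;> simp [htop q hq])) p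
      simp only [part, Finsupp.filter_apply, hε, if_true] at this
      exact hp this
    · push Not at hnone
      obtain ⟨p, hp, hd⟩ := hnone
      obtain ⟨h1, -, hl, hu⟩ := S.vertex_root hat hp hd
      exact (S.no_drop h (i := p.1) (w := P.nil) (Or.inl rfl) (h1 ▸ hp) hu hl hat htop).elim
  refine ⟨hinj, fun ε x hat hp => ?_⟩
  by_cases htop : ∀ q : J × P.Word, q.2.1.length = k → (P.ext b).map x q = 0
  · rw [hinj x hat htop]; simp
  by_cases hnone : ∀ p, x p ≠ 0 → S.dir p ≠ none
  · intro p hp0
    obtain ⟨δ, hδ⟩ := Option.ne_none_iff_exists'.1 (hnone p hp0)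
    obtain ⟨h1, h2, h3⟩ := S.part_spec hat hnone δ
    by_cases hδε : δ = ε
    · exfalso
      have := congrFun (congrArg DFunLike.coe ((S.block h hpure h1 h2).1 fun q hq => by
        rw [h3 q hq]
        split_ifs with hh
        · by_contra hne
          have := (hp q hq).1 hne
          rw [hh, hδε] at this
          simp at this
        · rfl)) p
      simp only [part, Finsupp.filter_apply, hδ, if_true] at this
      exact hp0 this
    · have hδ' : δ = !ε := by cases δ <;> cases ε <;> simp_all
      subst hδ'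
      refine ⟨hδ, ?_⟩
      have := (S.block h hpure h1 h2).2 (fun q hq => by
        rw [h3 q hq]
        split_ifs
        · rw [Bool.not_not]; exact (hp q hq).2
        · exact zero_mem _) p
      simp only [part, Finsupp.filter_apply, hδ, if_true] at this
      rwa [Bool.not_not] at this
  · exfalso
    push Not at hnone htop
    obtain ⟨p, hp0, hd⟩ := hnone
    obtain ⟨h1, hf, hl, hu⟩ := S.vertex_root hat hp0 hd
    obtain ⟨q, hq, hq0⟩ := htop
    have hk : 1 ≤ k := by
      have := (hp q hq).1 hq0
      obtain ⟨j, ⟨_ | ⟨a, l⟩, hc⟩⟩ := q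
      · simp [head] at this
      · simp at hq; omega
    have := S.move h (i := p.1) (w := P.nil) (Or.inl rfl) (h1 ▸ hp0) hu k (some ε)
      (S.below_of_le fun p' hp' => (hat p' hp').le) (fun δ hδ => by cases hδ; exact ⟨hk, hp⟩)
    simp [gWeight, hf, hl] at this

lemma topInj [DecidableEq I] (h : S.Minimal) (k : ℕ) : S.TopInj k := by
  have : ∀ k, S.TopPure k := fun k => by
    induction k with
    | zero => exact (S.level_step h 0 (by simp)).2
    | succ k ih => exact (S.level_step h (k + 1) fun _ => by simpa using ih).2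
  exact (S.level_step h k fun _ => this _).1

lemma level_zero_of_below [DecidableEq I] (h : S.Minimal) (x : P.M I) :
    ((P.ext b).map x = 0 → x = 0) ∧
      (P.Below 0 ((P.ext b).map x) → ∀ p, x p ≠ 0 → S.lvl p = 0) := by
  classical
  have key : x ≠ 0 → ∃ q, (P.ext b).map x q ≠ 0 ∧
      ∀ p, x p ≠ 0 → S.lvl p ≤ q.2.1.length := by
    intro hx
    have hne : x.support.Nonempty := Finsupp.support_nonempty_iff.2 hx
    obtain ⟨p0, hp0, hmax⟩ := Finset.exists_max_image x.support S.lvl hne
    set k := S.lvl p0
    set y := x.filter fun p => S.lvl p = k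
    have hy : S.At k y := fun p hp => by
      simp only [y, Finsupp.filter_apply] at hp
      split_ifs at hp with hl
      exacts [hl, absurd rfl hp]
    have hy0 : y ≠ 0 := fun h0 => by
      have := congrFun (congrArg DFunLike.coe h0) p0
      simp [y, k] at this
      exact (Finsupp.mem_support_iff.1 hp0) this
    obtain ⟨q, hq, hq0⟩ : ∃ q : J × P.Word, q.2.1.length = k ∧ (P.ext b).map y q ≠ 0 := by
      by_contra hc
      push Not at hc
      exact hy0 (S.topInj h k y hy hc)
    refine ⟨q, ?_, fun p hp => hq ▸ hmax p (Finsupp.mem_support_iff.2 hp)⟩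
    have : (P.ext b).map x q = (P.ext b).map y q := by
      rw [ext_apply, ext_apply]
      simp only [y, Finsupp.sum, Finsupp.support_filter, Finset.sum_filter, Finsupp.filter_apply]
      refine Finset.sum_congr rfl fun p hp => ?_
      split_ifs with hl
      · rfl
      · have hlt : S.lvl p < k := lt_of_le_of_ne (hmax p hp) hl
        have : bv b p q = 0 := by_contra fun hv => by
          have := (S.bv_spec p).1 q hv
          omega
        simp [this]
    rwa [this]
  refine ⟨fun h0 => by_contra fun hx => ?_, fun hb p hp => ?_⟩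
  · obtain ⟨q, hq, -⟩ := key hx
    simp [h0] at hq
  · obtain ⟨q, hq, hle⟩ := key fun h0 => hp (by simp [h0])
    have := hb q hq
    have := hle p hp
    omega

end Shape

lemma exists_minimal_or_zero [Fintype I] (b : I → P.M J) :
    (∃ b', Related b b' ∧ ∃ i, b' i = 0) ∨
      ∃ b', Related b b' ∧ ∃ S : P.Shape b', S.Minimal := by
  classical
  by_cases hz : ∃ b', Related b b' ∧ ∃ i, b' i = 0
  · exact Or.inl hz
  push Not at hz
  right
  let S0 : P.Shape b :=
    { d := fun i => (b i).support.sup fun p => p.2.1.length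
      f := fun _ => none
      below := fun i p hp => Finset.le_sup (f := fun p : J × P.Word => p.2.1.length)
        (Finsupp.mem_support_iff.2 hp)
      pos := fun i ε h => by simp at h
      isPure := fun i ε h => by simp at h }
  have hex : ∃ n, ∃ b', Related b b' ∧ ∃ S : P.Shape b', S.weight = n :=
    ⟨_, b, Related.refl b, S0, rfl⟩
  obtain ⟨b', hb', S, hS⟩ := Nat.find_spec hex
  refine ⟨b', hb', S, fun b'' hb'' S'' => ?_, fun b'' hb'' i => hz b'' (hb'.trans hb'') i⟩
  rw [hS]
  exact Nat.find_min' hex ⟨b'', hb'.trans hb'', S'', rfl⟩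

theorem rank_le [Fintype J] : ∀ (n : ℕ) (I : Type v) [Fintype I] (b : I → P.M J),
    Fintype.card I = n → Function.Surjective (P.ext b).map →
    Fintype.card J ≤ n ∧ (Fintype.card J = n → Function.Injective (P.ext b).map) := by
  classical
  intro n
  induction n using Nat.strong_induction_on with
  | _ n ih =>
  intro I _ b hn hsurj
  rcases exists_minimal_or_zero b with ⟨b', ⟨γ, -, he⟩, i, hi⟩ | ⟨b', ⟨γ, hγ, he⟩, S, hS⟩
  · have hsurj' : Function.Surjective (P.ext b').map := fun y => by
      obtain ⟨x, hx⟩ := hsurj y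
      exact ⟨γ.map x, by rw [← hx, he]; rfl⟩
    let b'' : {j // j ≠ i} → P.M J := fun j => b' j.1
    let π : P.Equiv' I {j // j ≠ i} := P.ext fun j =>
      if hj : j = i then 0 else Finsupp.single (⟨j, hj⟩, P.nil) 1
    have hπ : (P.ext b').map = (P.ext b'').map.comp π.map := by
      refine Equiv'.map_eq _ ((P.ext b'').comp π) fun j => ?_
      by_cases hj : j = i
      · subst hj; simp [Equiv'.comp, π, ext_nil, hi]
      · simp [Equiv'.comp, π, ext_nil, hj, b'']
    have hsurj'' : Function.Surjective (P.ext b'').map := fun y => by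
      obtain ⟨x, hx⟩ := hsurj' y
      exact ⟨π.map x, by rw [← hx, hπ]; rfl⟩
    have hcard : Fintype.card {j // j ≠ i} = n - 1 := by simp [hn]
    have hn0 : 0 < n := hn ▸ Fintype.card_pos_iff.2 ⟨i⟩
    have := (ih (n - 1) (by omega) {j // j ≠ i} b'' hcard hsurj'').1
    exact ⟨by omega, fun h => by omega⟩
  · have hinj : Function.Injective (P.ext b').map := by
      rw [injective_iff_map_eq_zero]
      exact fun x => (S.level_zero_of_below hS x).1
    have hsurj' : Function.Surjective (P.ext b').map := fun y => by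
      obtain ⟨x, hx⟩ := hsurj y
      exact ⟨γ.map x, by rw [← hx, he]; rfl⟩
    refine ⟨?_, fun _ => by rw [he]; exact hinj.comp hγ⟩
    let ιI : (I → D) →ₗ[D] P.M I :=
      ∑ i, (Finsupp.lsingle (i, P.nil)).comp (LinearMap.proj i)
    let prJ : P.M J →ₗ[D] (J → D) := LinearMap.pi fun j => Finsupp.lapply (j, P.nil)
    let F : (I → D) →ₗ[D] (J → D) := prJ.comp ((P.ext b').map.comp ιI)
    have hιI : ∀ (c : I → D) (p : I × P.Word),
        ιI c p = if p.2 = P.nil then c p.1 else 0 := by
      intro c p
      obtain ⟨i, w⟩ := p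
      simp only [ιI, LinearMap.sum_apply, Finsupp.finsetSum_apply, LinearMap.comp_apply,
        LinearMap.proj_apply, Finsupp.lsingle_apply, Finsupp.single_apply, Prod.mk.injEq]
      split_ifs with hw <;> simp [hw, eq_comm]
    have hF : Function.Surjective F := by
      intro g
      obtain ⟨x, hx⟩ := hsurj' (∑ j, Finsupp.single (j, P.nil) (g j))
      have hlvl := (S.level_zero_of_below hS x).2 (by
        rw [hx]
        exact below_sum _ _ fun j _ => below_single (by simp [nil]) _)
      refine ⟨fun i => x (i, P.nil), ?_⟩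
      have hxι : ιI (fun i => x (i, P.nil)) = x := by
        ext p
        rw [hιI]
        split_ifs with hw
        · rw [← hw]
        · by_contra hne
          have h0 := hlvl p (Ne.symm hne)
          apply hw
          have hd := S.d_le_lvl p
          cases hdir : S.dir p with
          | none => exact congrArg Prod.snd (S.eq_nil_of_dir_none hdir).1
          | some ε =>
            rcases S.cases_dir hdir with ⟨-, hf, -⟩ | ⟨-, hf, -⟩ | ⟨τ, w, hw', he', h3⟩
            · have := S.pos _ _ hf; omega
            · have := S.pos _ _ hf; omega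
            · omega
      funext j
      simp only [F, prJ, LinearMap.comp_apply, LinearMap.pi_apply, Finsupp.lapply_apply, hxι, hx,
        Finsupp.finsetSum_apply, Finsupp.single_apply, Prod.mk.injEq, and_true]
      simp
    have := LinearMap.finrank_le_finrank_of_surjective (f := F) hF
    simp only [Module.finrank_pi] at this
    omega

end Datum

variable (P : Datum D)

theorem injective_of_surjective {I : Type v} [Finite I] (β : P.Equiv' I I)
    (h : Function.Surjective β.map) : Function.Injective β.map := by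
  classical
  have := Fintype.ofFinite I
  have he : β.map = (P.ext fun i => β.map (Finsupp.single (i, P.nil) 1)).map :=
    Datum.Equiv'.map_eq _ _ fun i => (P.ext_nil (fun i => β.map (Finsupp.single (i, P.nil) 1)) i).symm
  rw [he] at h ⊢
  exact (Datum.rank_le _ I _ rfl h).2 rfl

theorem injective_of_ne_zero (β : P.Equiv' PUnit.{1} PUnit.{1}) (h : β.map ≠ 0) :
    Function.Injective β.map := by
  classical
  have he : β.map = (P.ext fun i => β.map (Finsupp.single (i, P.nil) 1)).map :=
    Datum.Equiv'.map_eq _ _ fun i => (P.ext_nil (fun i => β.map (Finsupp.single (i, P.nil) 1)) i).symm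
  rw [he] at h ⊢
  rcases Datum.exists_minimal_or_zero (fun i => β.map (Finsupp.single (i, P.nil) 1)) with
    ⟨b', ⟨γ, -, hγ⟩, i, hi⟩ | ⟨b', ⟨γ, hγ, he'⟩, S, hS⟩
  · refine absurd ?_ h
    have : (P.ext b').map = 0 := by
      refine Finsupp.lhom_ext fun p c => ?_
      rw [← mul_one c, ← smul_eq_mul, ← Finsupp.smul_single, LinearMap.map_smul]
      have hb : ∀ j, b' j = 0 := fun j => by cases j; cases i; exact hi
      have := Datum.Equiv'.agree (P.ext b') (P.ext fun _ : PUnit.{1} => (0 : P.M PUnit.{1})) p.1
        (by simp [Datum.ext_nil, hb]) p.2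
      rw [this, Datum.ext_single]
      simp [Datum.bv, Datum.eval_zero]
    rw [hγ, this, LinearMap.zero_comp]
  · rw [he']
    have hinj : Function.Injective (P.ext b').map :=
      (injective_iff_map_eq_zero _).2 fun x => (S.level_zero_of_below hS x).1
    exact hinj.comp hγ

end Vale.Agent.HNNAlg
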