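import Vale.Agent.HNNAlg.Pencil
import Vale.Agent.HNNAlg.Degree

/-!
The group algebra of an HNN extension acting faithfully on a tree module over series.
-/

namespace Vale.Agent.HNNAlg

open Module

universe u v w

variable {K : Type u} [Field K] {H : Type v} [Group H] [LinearOrder H] [MulLeftStrictMono H]
  [MulRightStrictMono H]

lemma single_mul_single' (g h : H) :
    (Series.single g 1 : Series K H) * Series.single h 1 = Series.single (g * h) 1 :=
  ((Series.singleHom (K := K)).map_mul g h).symm

lemma coeff_single_self (g : H) (r : K) : (Series.single g r : Series K H).coeff g = r := by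
  classical
  rw [Series.coeff_single]; simp

lemma single_left_inj {g h : H} (e : (Series.single g 1 : Series K H) = Series.single h 1) :
    g = h := by
  classical
  have := congrArg (fun x : Series K H => x.coeff g) e
  simp [Series.coeff_single] at this
  exact this

section Cosets

variable (C : Subgroup H)

open Classical in
/-- A representative of the right coset, equal to `1` on the subgroup. -/
noncomputable def cosetRep (g : H) : H :=
  if g ∈ C then 1 else (Quotient.mk (QuotientGroup.rightRel C) g).out

lemma mul_inv_cosetRep (g : H) : g * (cosetRep C g)⁻¹ ∈ C := by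
  unfold cosetRep
  split_ifs with h
  · simpa using h
  · exact QuotientGroup.rightRel_apply.1 (Quotient.mk_out (s := QuotientGroup.rightRel C) g)

lemma cosetRep_one : cosetRep C 1 = 1 := by simp [cosetRep, C.one_mem]

lemma cosetRep_congr {g g' : H} (h : g * g'⁻¹ ∈ C) : cosetRep C g = cosetRep C g' := by
  have hiff : g ∈ C ↔ g' ∈ C := by
    constructor
    · intro hg
      simpa [mul_assoc] using C.mul_mem (C.inv_mem h) hg
    · intro hg
      simpa [mul_assoc] using C.mul_mem h hg
  unfold cosetRep
  by_cases hg : g ∈ C
  · rw [if_pos hg, if_pos (hiff.1 hg)]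
  · rw [if_neg hg, if_neg fun h' => hg (hiff.2 h')]
    congr 1
    refine Quotient.sound ?_
    show QuotientGroup.rightRel C g g'
    rw [QuotientGroup.rightRel_apply]
    simpa using C.inv_mem h

lemma cosetRep_idem (g : H) : cosetRep C (cosetRep C g) = cosetRep C g :=
  (cosetRep_congr C (mul_inv_cosetRep C g)).symm

/-- Coset representatives are independent over series supported in the subgroup. -/
lemma indep_cosets (E : Subfield (Series K H)) (hE : E ≤ Series.supportedIn C) :
    LinearIndepOn E id
      ((fun r => (Series.single r 1 : Series K H)) '' Set.range (cosetRep C)) := by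
  classical
  refine LinearIndepOn.id_image ?_
  rw [LinearIndepOn, linearIndependent_iff']
  intro s c hc r hr
  apply Subtype.ext
  apply Series.ext'
  intro g
  by_cases hg : g ∈ C
  · have h0 := congrArg (fun x : Series K H => x.coeff (g * r.1)) hc
    simp only [Series.coeff_sum, Series.coeff_zero] at h0
    rw [Finset.sum_eq_single r] at h0
    · rw [show (c r • (Series.single r.1 1 : Series K H)) = (c r : Series K H) * Series.single r.1 1
        from rfl, Series.coeff_mul_single'] at h0
      simpa [Series.coeff_zero] using h0
    · intro r' _ hne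
      rw [show (c r' • (Series.single r'.1 1 : Series K H)) =
        (c r' : Series K H) * Series.single r'.1 1 from rfl, Series.coeff_mul_single', mul_one]
      by_contra hne'
      have hm := (Series.mem_supportedIn C _).1 (hE (c r').2) _ hne'
      obtain ⟨a, ha⟩ := r.2
      obtain ⟨a', ha'⟩ := r'.2
      refine hne (Subtype.ext ?_)
      have hrr : r.1 * r'.1⁻¹ ∈ C := by simpa [mul_assoc] using C.mul_mem (C.inv_mem hg) hm
      have := cosetRep_congr C hrr
      rw [← ha, ← ha', cosetRep_idem, cosetRep_idem, ha, ha'] at this
      exact this.symm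
    · exact fun h => absurd hr h
  · by_contra hne
    exact hg ((Series.mem_supportedIn C _).1 (hE (c r).2) g (by simpa [Series.coeff_zero] using hne))

end Cosets

variable {A B : Subgroup H} {φ : A ≃* B}

/-- The subgroup at the source of `t ^ ε`. -/
def src (A B : Subgroup H) (ε : Bool) : Subgroup H := cond ε A B

/-- Conjugation by `t ^ ε` on the source subgroup. -/
def conjMap (φ : A ≃* B) : (ε : Bool) → src A B ε → H
  | true, c => (φ c : H)
  | false, c => (φ.symm c : H)

/-- The letter `t ^ ε` of the HNN extension. -/
noncomputable def tpow (φ : A ≃* B) (ε : Bool) : HNNExtension H A B φ :=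
  cond ε HNNExtension.t HNNExtension.t⁻¹

lemma tpow_mul (ε : Bool) (c : src A B ε) :
    tpow φ ε * HNNExtension.of (c : H) = HNNExtension.of (conjMap φ ε c) * tpow φ ε := by
  cases ε
  · exact HNNExtension.inv_t_mul_of (φ := φ) c
  · exact HNNExtension.t_mul_of (φ := φ) c

lemma tpow_not_mul (ε : Bool) : tpow φ ε * tpow φ (!ε) = 1 := by
  cases ε <;> simp [tpow]

/-- A datum over series which is compatible with the HNN extension. -/
structure Model (φ : A ≃* B) (K : Type u) [Field K] where
  P : Datum (Series K H)
  E_le : ∀ ε, P.E ε ≤ Series.supportedIn (src A B ε)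
  single_mem : ∀ (ε : Bool) (c : src A B ε) (r : K), Series.single (c : H) r ∈ P.E ε
  σ_single : ∀ (ε : Bool) (c : src A B ε) (r : K),
    (P.σ ε ⟨_, single_mem ε c r⟩ : Series K H) = Series.single (conjMap φ ε c) r
  exists_idx : ∀ (ε : Bool) (g : H), ∃ τ, P.bas ε τ = Series.single (cosetRep (src A B ε) g) 1

lemma exists_model (K : Type u) [Field K] [IsFreeGroup A] (φ : A ≃* B) :
    Nonempty (Model φ K) := by
  classical
  let e := (IsFreeGroup.toFreeGroup A).symm
  let ι₁ : FreeGroup (IsFreeGroup.Generators A) →* H := A.subtype.comp e.toMonoidHom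
  let ι₂ : FreeGroup (IsFreeGroup.Generators A) →* H :=
    B.subtype.comp (φ.toMonoidHom.comp e.toMonoidHom)
  obtain ⟨E₁, E₂, σ, h₁, h₂, hσ⟩ := exists_subfieldEquiv (K := K) ι₁ ι₂
    (A.subtype_injective.comp e.injective) (B.subtype_injective.comp (φ.injective.comp e.injective))
  have hr₁ : ι₁.range = A := by
    rw [MonoidHom.range_comp, MonoidHom.range_eq_top.2 e.surjective, ← MonoidHom.range_eq_map,
      Subgroup.range_subtype]
  have hr₂ : ι₂.range = B := by
    rw [MonoidHom.range_comp, MonoidHom.range_comp, MonoidHom.range_eq_top.2 e.surjective,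
      ← MonoidHom.range_eq_map, MonoidHom.range_eq_top.2 φ.surjective, ← MonoidHom.range_eq_map,
      Subgroup.range_subtype]
  rw [hr₁] at h₁
  rw [hr₂] at h₂
  let E : Bool → Subfield (Series K H) := fun ε => cond ε E₁ E₂
  let σ' : ∀ ε, E ε ≃+* E (!ε) := fun ε =>
    match ε with
    | true => σ
    | false => σ.symm
  have hE : ∀ ε, E ε ≤ Series.supportedIn (src A B ε) := fun ε => by cases ε <;> assumption
  have hA : ∀ (c : A) (r : K), ∃ h : Series.single (c : H) r ∈ E₁,
      (σ ⟨_, h⟩ : Series K H) = Series.single (φ c : H) r := by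
    intro c r
    obtain ⟨h, h'⟩ := hσ (e.symm c) r
    have e1 : ι₁ (e.symm c) = (c : H) := by simp [ι₁]
    have e2 : ι₂ (e.symm c) = (φ c : H) := by simp [ι₂]
    simp only [Series.ofGA_single, e1, e2] at h h'
    exact ⟨h, h'⟩
  have hB : ∀ (c : B) (r : K), ∃ h : Series.single (c : H) r ∈ E₂,
      (σ.symm ⟨_, h⟩ : Series K H) = Series.single (φ.symm c : H) r := by
    intro c r
    obtain ⟨h, h'⟩ := hA (φ.symm c) r
    rw [MulEquiv.apply_symm_apply] at h'
    have hm : Series.single (c : H) r ∈ E₂ := h' ▸ SetLike.coe_mem _
    refine ⟨hm, ?_⟩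
    have : σ ⟨_, h⟩ = ⟨_, hm⟩ := Subtype.ext h'
    rw [← this, RingEquiv.symm_apply_apply]
  have hsingle : ∀ (ε : Bool) (c : src A B ε) (r : K), Series.single (c : H) r ∈ E ε := fun ε c r =>
    match ε, c with
    | true, c => (hA c r).1
    | false, c => (hB c r).1
  let b := fun ε => Basis.extend (indep_cosets (src A B ε) (E ε) (hE ε))
  have hb : ∀ (ε : Bool) (g : H), ∃ τ, b ε τ = Series.single (cosetRep (src A B ε) g) 1 :=
    fun ε g => ⟨⟨_, Basis.subset_extend _ ⟨_, ⟨g, rfl⟩, rfl⟩⟩, Basis.extend_apply_self _ _⟩
  choose one hone using fun ε => hb ε 1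
  refine ⟨{ P :=
              { E := E
                σ := σ'
                σ_inv := fun ε x => ?_
                idx := _
                bas := b
                one := one
                bas_one := fun ε => by rw [hone, cosetRep_one]; rfl }
            E_le := hE
            single_mem := hsingle
            σ_single := fun ε c r => ?_
            exists_idx := hb }⟩
  · cases ε
    · exact congrArg Subtype.val (σ.apply_symm_apply x)
    · exact congrArg Subtype.val (σ.symm_apply_apply x)
  · cases ε
    · exact (hB c r).2
    · exact (hA c r).2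

namespace Model

variable (W : Model φ K) {I : Type w}

/-- Scalar action of the division ring. -/
noncomputable def smulEnd : Series K H →+* AddMonoid.End (W.P.M I) :=
  Module.toAddMonoidEnd (Series K H) (W.P.M I)

lemma T_single_smul (ε : Bool) (c : src A B ε) (r : K) (m : W.P.M I) :
    W.P.T ε ((Series.single (c : H) r : Series K H) • m) =
      (Series.single (conjMap φ ε c) r : Series K H) • W.P.T ε m := by
  rw [show (Series.single (c : H) r : Series K H) =
    ((⟨_, W.single_mem ε c r⟩ : W.P.E ε) : Series K H) from rfl, W.P.T_smul, W.σ_single]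

/-- The stable letter as a unit. -/
noncomputable def tUnit : (AddMonoid.End (W.P.M I))ˣ where
  val := W.P.T true
  inv := W.P.T false
  val_inv := AddMonoidHom.ext fun m => W.P.T_T' true m
  inv_val := AddMonoidHom.ext fun m => W.P.T_T true m

/-- The action of the HNN extension. -/
noncomputable def act : HNNExtension H A B φ →* (AddMonoid.End (W.P.M I))ˣ :=
  HNNExtension.lift
    ((Units.map (W.smulEnd (I := I)).toMonoidHom).comp (Series.singleHom (K := K)).toHomUnits)
    W.tUnit fun a => by
      refine Units.ext (AddMonoidHom.ext fun m => ?_)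
      exact W.T_single_smul true a 1 m

lemma act_of (h : H) (m : W.P.M I) :
    (W.act (HNNExtension.of h)).val m = (Series.single h 1 : Series K H) • m := by
  simp [act, smulEnd]
  rfl

lemma act_tpow (ε : Bool) (m : W.P.M I) : (W.act (tpow φ ε)).val m = W.P.T ε m := by
  cases ε <;> simp [act, tpow, tUnit] <;> rfl

lemma act_mul (x y : HNNExtension H A B φ) (m : W.P.M I) :
    (W.act (x * y)).val m = (W.act x).val ((W.act y).val m) := by
  rw [map_mul, Units.val_mul]
  rfl

lemma act_comm {J : Type*} (β : W.P.Equiv' I J) (g : HNNExtension H A B φ) (m : W.P.M I) :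
    β.map ((W.act g).val m) = (W.act g).val (β.map m) := by
  induction g using HNNExtension.induction_on generalizing m with
  | of h => rw [act_of, act_of, map_smul]
  | t =>
    exact (congrArg β.map (W.act_tpow true m)).trans
      ((β.map_T _ _).trans (W.act_tpow true _).symm)
  | mul x y hx hy => rw [act_mul, act_mul, hx, hy]
  | inv x hx =>
    have h1 := hx ((W.act x⁻¹).val m)
    rw [← act_mul, mul_inv_cancel, map_one] at h1
    simp only [Units.val_one, AddMonoid.End.coe_one, id_eq] at h1
    rw [h1, ← act_mul, inv_mul_cancel, map_one]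
    simp

lemma smul_comm_act (r : K) (g : HNNExtension H A B φ) (m : W.P.M I) :
    (W.act g).val ((Series.single 1 r : Series K H) • m) =
      (Series.single 1 r : Series K H) • (W.act g).val m := by
  have hT : ∀ ε (m : W.P.M I), W.P.T ε ((Series.single 1 r : Series K H) • m) =
      (Series.single 1 r : Series K H) • W.P.T ε m := fun ε m => by
    have hc : conjMap φ ε 1 = 1 := by
      cases ε
      · exact congrArg Subtype.val (map_one φ.symm)
      · exact congrArg Subtype.val (map_one φ)
    have := W.T_single_smul ε 1 r m
    rwa [hc, OneMemClass.coe_one] at this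
  induction g using HNNExtension.induction_on generalizing m with
  | of h => rw [act_of, act_of, smul_smul, smul_smul, Series.const_comm]
  | t =>
    exact (W.act_tpow true _).trans
      ((hT true m).trans (congrArg _ (W.act_tpow true m).symm))
  | mul x y hx hy => rw [act_mul, act_mul, hy, hx]
  | inv x hx =>
    have h1 := hx ((W.act x⁻¹).val m)
    rw [← act_mul, mul_inv_cancel, map_one] at h1
    simp only [Units.val_one, AddMonoid.End.coe_one, id_eq] at h1
    rw [← h1, ← act_mul, inv_mul_cancel, map_one]
    simp

/-- The action of the group algebra. -/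
noncomputable def hom :
    MonoidAlgebra K (HNNExtension H A B φ) →+* AddMonoid.End (W.P.M I) :=
  MonoidAlgebra.liftNCRingHom ((W.smulEnd (I := I)).comp Series.constHom)
    ((Units.coeHom _).comp W.act) fun r g =>
      AddMonoidHom.ext fun m => (W.smul_comm_act r g m).symm

lemma hom_single (g : HNNExtension H A B φ) (r : K) (m : W.P.M I) :
    W.hom (MonoidAlgebra.single g r) m = (Series.single 1 r : Series K H) • (W.act g).val m := by
  simp [hom, MonoidAlgebra.liftNCRingHom, smulEnd]
  rfl

lemma hom_add (x y : MonoidAlgebra K (HNNExtension H A B φ)) (m : W.P.M I) :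
    W.hom (x + y) m = W.hom x m + W.hom y m := by
  rw [map_add]; rfl

/-- Evaluation of the action at one vector. -/
noncomputable def homAt (m : W.P.M I) :
    MonoidAlgebra K (HNNExtension H A B φ) →+ W.P.M I where
  toFun x := W.hom x m
  map_zero' := by rw [map_zero]; rfl
  map_add' x y := W.hom_add x y m

lemma hom_sum {α : Type*} (s : Finset α) (x : α → MonoidAlgebra K (HNNExtension H A B φ))
    (m : W.P.M I) : W.hom (∑ a ∈ s, x a) m = ∑ a ∈ s, W.hom (x a) m :=
  map_sum (W.homAt m) x s

lemma hom_comm {J : Type*} (β : W.P.Equiv' I J) (x : MonoidAlgebra K (HNNExtension H A B φ))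
    (m : W.P.M I) : β.map (W.hom x m) = W.hom x (β.map m) := by
  induction x using MonoidAlgebra.induction_linear with
  | zero => simp
  | add x y hx hy =>
    rw [hom_add, hom_add, map_add, hx, hy]
  | single g r => rw [hom_single, hom_single, map_smul, act_comm]

open Classical in
/-- A support point of a series. -/
noncomputable def point (x : Series K H) : H := if h : ∃ g, x.coeff g ≠ 0 then h.choose else 1

lemma point_single (g : H) : point (Series.single g 1 : Series K H) = g := by
  classical
  have h : ∃ a, (Series.single g 1 : Series K H).coeff a ≠ 0 :=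
    ⟨g, by rw [coeff_single_self]; exact one_ne_zero⟩
  rw [point, dif_pos h]
  have := h.choose_spec
  rw [Series.coeff_single] at this
  by_contra hne
  simp [hne] at this

/-- The group element of a word. -/
noncomputable def value (w : W.P.Word) : HNNExtension H A B φ :=
  (w.1.map fun a => tpow φ a.1 * HNNExtension.of (point (W.P.bas a.1 a.2))).prod

/-- `g` is in normal form over the tree module. -/
def Normal (I : Type w) (g : HNNExtension H A B φ) : Prop :=
  ∃ (h : H) (w : W.P.Word),
    (∀ a ∈ w.1, W.P.bas a.1 a.2 = Series.single (point (W.P.bas a.1 a.2)) 1) ∧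
    g = HNNExtension.of h * W.value w ∧
    ∀ i : I, (W.act g).val (Finsupp.single (i, W.P.nil) 1) =
      Finsupp.single (i, w) (Series.single h 1)

lemma normal_one : W.Normal I 1 :=
  ⟨1, W.P.nil, by simp [Datum.nil], by simp [value, Datum.nil], fun i => by simp; rfl⟩

lemma Normal.of_mul {g : HNNExtension H A B φ} (hg : W.Normal I g) (h' : H) :
    W.Normal I (HNNExtension.of h' * g) := by
  obtain ⟨h, w, hw, he, hact⟩ := hg
  refine ⟨h' * h, w, hw, by rw [he, map_mul, mul_assoc], fun i => ?_⟩
  rw [act_mul, hact, act_of, Finsupp.smul_single, smul_eq_mul, single_mul_single']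

lemma Normal.tpow_mul {g : HNNExtension H A B φ} (hg : W.Normal I g) (ε : Bool) :
    W.Normal I (tpow φ ε * g) := by
  obtain ⟨h, w, hw, he, hact⟩ := hg
  set r := cosetRep (src A B ε) h
  let c : src A B ε := ⟨h * r⁻¹, mul_inv_cosetRep _ h⟩
  have hcr : (c : H) * r = h := inv_mul_cancel_right h r
  obtain ⟨τ, hτ⟩ := W.exists_idx ε h
  have hgrp : tpow φ ε * g =
      HNNExtension.of (conjMap φ ε c) * (tpow φ ε * HNNExtension.of r * W.value w) := by
    rw [he, ← hcr, map_mul]
    simp only [← mul_assoc]
    rw [HNNAlg.tpow_mul]
  have hT : ∀ i : I, (W.act (tpow φ ε * g)).val (Finsupp.single (i, W.P.nil) 1) =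
      (Series.single (conjMap φ ε c) 1 : Series K H) • W.P.step ε τ i w := by
    intro i
    rw [act_mul, hact, act_tpow, ← hcr, ← single_mul_single', ← smul_eq_mul, ← Finsupp.smul_single,
      T_single_smul, show (Series.single r 1 : Series K H) = W.P.bas ε τ from hτ.symm,
      W.P.T_single_bas]
  rcases W.P.cons_or_cancel ε τ w with hc | ⟨rfl, a, l, hl, hε⟩
  · refine ⟨conjMap φ ε c, ⟨⟨ε, τ⟩ :: w.1, hc⟩, ?_, ?_, fun i => ?_⟩
    · intro a ha
      rcases List.mem_cons.1 ha with rfl | ha
      · simp only [hτ, point_single]
      · exact hw a ha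
    · rw [hgrp]
      simp [value, hτ, point_single, r, mul_assoc]
    · rw [hT, W.P.step_cons w hc, Finsupp.smul_single, smul_eq_mul, mul_one]
  · obtain ⟨wl, hwl⟩ := w
    subst hl
    obtain ⟨δ, τ'⟩ := a
    simp only at hε
    subst hε
    have hr : r = 1 := by
      rw [W.P.bas_one] at hτ
      exact (single_left_inj (K := K) (g := 1) (h := r) hτ).symm
    have hb := hw ⟨!ε, τ'⟩ List.mem_cons_self
    refine ⟨conjMap φ ε c * point (W.P.bas (!ε) τ'), ⟨l, hwl.of_cons⟩,
      fun a ha => hw a (List.mem_cons_of_mem _ ha), ?_, fun i => ?_⟩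
    · rw [hgrp, hr, map_one, mul_one]
      simp only [value, List.map_cons, List.prod_cons, map_mul, mul_assoc]
      congr 1
      rw [← mul_assoc (tpow φ ε), tpow_not_mul, one_mul]
    · rw [hT, W.P.step_cancel _ l hwl rfl, Finsupp.smul_single, smul_eq_mul]
      simp only at hb
      rw [← single_mul_single', ← hb]

lemma normal_all (g : HNNExtension H A B φ) : W.Normal I g := by
  suffices ∀ x, W.Normal I x → W.Normal I (g * x) ∧ W.Normal I (g⁻¹ * x) by
    simpa using (this 1 W.normal_one).1
  induction g using HNNExtension.induction_on with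
  | of h =>
    intro x hx
    exact ⟨hx.of_mul W h, by rw [← map_inv]; exact hx.of_mul W h⁻¹⟩
  | t =>
    intro x hx
    exact ⟨hx.tpow_mul W true, hx.tpow_mul W false⟩
  | mul a b ha hb =>
    intro x hx
    exact ⟨by rw [mul_assoc]; exact (ha _ (hb x hx).1).1,
      by rw [mul_inv_rev, mul_assoc]; exact (hb _ (ha x hx).2).2⟩
  | inv a ha =>
    intro x hx
    exact ⟨(ha x hx).2, by rw [inv_inv]; exact (ha x hx).1⟩

/-- Vectors over the group algebra as elements of the tree module. -/
noncomputable def vec [Fintype I] (v : I → MonoidAlgebra K (HNNExtension H A B φ)) : W.P.M I :=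
  ∑ i, W.hom (v i) (Finsupp.single (i, W.P.nil) 1)

lemma vec_injective [Fintype I] (v : I → MonoidAlgebra K (HNNExtension H A B φ))
    (h : W.vec v = 0) : v = 0 := by
  classical
  choose hh ww hgood hval hact using W.normal_all (I := I)
  funext i0
  refine MonoidAlgebra.ext (Finsupp.ext fun g0 => ?_)
  have h1 := congrArg (fun m : W.P.M I => (m (i0, ww g0)).coeff (hh g0)) h
  have hx : ∀ (x : MonoidAlgebra K (HNNExtension H A B φ)) (i : I),
      (W.hom x (Finsupp.single (i, W.P.nil) 1) (i0, ww g0)).coeff (hh g0) =
        if i = i0 then x.coeff g0 else 0 := by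
    intro x i
    induction x using MonoidAlgebra.induction_linear with
    | zero => simp [Series.coeff_zero]
    | add x y hx hy =>
      rw [W.hom_add, Finsupp.add_apply, Series.coeff_add, hx, hy]
      split_ifs <;> simp
    | single g r =>
      rw [hom_single, hact, Finsupp.smul_single, smul_eq_mul, Series.const_comm,
        Finsupp.single_apply, MonoidAlgebra.coeff_single, Finsupp.single_apply]
      by_cases hi : i = i0
      · subst hi
        by_cases hg : g = g0
        · subst hg
          simp [Series.coeff_mul_single', coeff_single_self]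
        · rw [if_pos rfl, if_neg hg]
          split_ifs with hw
          · rw [Series.coeff_mul_single', Series.coeff_single, if_neg, zero_mul]
            simp only [inv_one, mul_one]
            intro heq
            exact hg (by rw [hval g, hval g0, heq, (Prod.mk.inj hw).2])
          · rfl
      · rw [if_neg hi, if_neg fun hw => hi (Prod.mk.inj hw).1]
        rfl
  simp only [vec, Finsupp.finsetSum_apply, Series.coeff_sum, hx, Finsupp.coe_zero, Pi.zero_apply,
    Series.coeff_zero, Finset.sum_ite_eq', Finset.mem_univ, if_true] at h1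
  simpa using h1

theorem result_model (W : Model φ K) : NoZeroDivisors (MonoidAlgebra K (HNNExtension H A B φ)) ∧
    IsStablyFiniteRing (MonoidAlgebra K (HNNExtension H A B φ)) := by
  classical
  refine ⟨⟨fun {x y} hxy => ?_⟩, ⟨fun n => ⟨fun {a b} hab => ?_⟩⟩⟩
  · by_contra hne
    push Not at hne
    obtain ⟨hx, hy⟩ := hne
    let e : W.P.M PUnit.{1} := Finsupp.single (PUnit.unit, W.P.nil) 1
    let β := W.P.ext fun _ : PUnit.{1} => W.hom y e
    have hev : ∀ z : MonoidAlgebra K (HNNExtension H A B φ),
        W.hom z e = W.vec (fun _ : PUnit.{1} => z) := fun z => by simp [vec, e]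
    have hb : β.map ≠ 0 := fun h0 => by
      have h1 := LinearMap.congr_fun h0 e
      simp only [β, e, LinearMap.zero_apply, Datum.ext_nil] at h1
      exact hy (congrFun (W.vec_injective _ ((hev y).symm.trans h1)) PUnit.unit)
    have h2 : β.map (W.hom x e) = 0 := by
      rw [W.hom_comm, show β.map e = W.hom y e from W.P.ext_nil _ _]
      rw [show W.hom x (W.hom y e) = W.hom (x * y) e from by rw [map_mul]; rfl, hxy, map_zero]
      rfl
    have h3 := injective_of_ne_zero W.P β hb (h2.trans (map_zero _).symm)
    exact hx (congrFun (W.vec_injective _ ((hev x).symm.trans h3)) PUnit.unit)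
  · let β := W.P.ext fun i : Fin n => W.vec (b i)
    let α := W.P.ext fun i : Fin n => W.vec (a i)
    have hβ : ∀ v : Fin n → MonoidAlgebra K (HNNExtension H A B φ),
        β.map (W.vec v) = W.vec (Matrix.vecMul v b) := by
      intro v
      simp only [vec, map_sum, hom_comm]
      simp only [β, Datum.ext_nil, vec, map_sum, Matrix.vecMul, dotProduct]
      simp only [← map_sum, W.hom_sum]
      simp only [map_sum]
      rw [Finset.sum_comm]
      refine Finset.sum_congr rfl fun j _ => Finset.sum_congr rfl fun i _ => ?_
      rw [map_mul]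
      rfl
    have hsurj : Function.Surjective β.map := by
      intro y
      have hid : β.map.comp α.map = LinearMap.id := by
        refine Datum.Equiv'.map_eq (β.comp α) (Datum.Equiv'.id W.P (Fin n)) fun i => ?_
        simp only [Datum.Equiv'.comp, Datum.Equiv'.id, LinearMap.comp_apply, LinearMap.id_apply, α,
          Datum.ext_nil, hβ]
        rw [show Matrix.vecMul (a i) b = (a * b) i from rfl, hab]
        simp only [vec]
        rw [Finset.sum_eq_single i (fun j _ hj => by simp [Matrix.one_apply_ne hj.symm]) (by simp)]
        simp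
      exact ⟨α.map y, LinearMap.congr_fun hid y⟩
    have hinj := injective_of_surjective W.P β hsurj
    refine sub_eq_zero.1 (funext fun i => ?_)
    apply W.vec_injective
    apply hinj
    rw [hβ, map_zero, show Matrix.vecMul ((b * a - 1) i) b = ((b * a - 1) * b) i from rfl,
      sub_mul, mul_assoc, hab, mul_one, one_mul, sub_self]
    simp [vec]

end Model

end Vale.Agent.HNNAlg
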