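import Mathlib

/-!
Free groups are bi-orderable (Magnus).

`magnus g` is the family of coefficients of the image of `g` in the noncommutative power series,
each generator `x` going to `1 + X`. A reduced word with `k` syllables has a nonzero coefficient at
the word of its `k` letters, so the map is injective; comparing the series at the first word where
they differ, shorter words first, gives a two sided invariant order.
-/

namespace Vale.Agent.HNNAlg

universe u

namespace Magnus

variable {X : Type u} [DecidableEq X]

/-- Left multiplication by `1 + x`. -/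
def mulGen (x : X) (a : List X → ℤ) : List X → ℤ
  | [] => a []
  | y :: v => a (y :: v) + if y = x then a v else 0

/-- Left multiplication by the inverse of `1 + x`. -/
def mulGenInv (x : X) (a : List X → ℤ) : List X → ℤ
  | [] => a []
  | y :: v => a (y :: v) - if y = x then mulGenInv x a v else 0

/-- Left multiplication by `1 + x` as a permutation of the series. -/
def genPerm (x : X) : Equiv.Perm (List X → ℤ) where
  toFun := mulGen x
  invFun := mulGenInv x
  left_inv a := funext fun w => by
    induction w with
    | nil => rfl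
    | cons y v ih => rw [mulGenInv, ih, mulGen]; ring
  right_inv a := funext fun w => by
    cases w <;> simp [mulGen, mulGenInv]

/-- The action of the free group on series. -/
def act : FreeGroup X →* Equiv.Perm (List X → ℤ) := FreeGroup.lift genPerm

/-- The series `1`. -/
def one : List X → ℤ
  | [] => 1
  | _ :: _ => 0

/-- The Magnus expansion. -/
def magnus (g : FreeGroup X) : List X → ℤ := act g one

/-- The product of series. -/
def conv : (List X → ℤ) → (List X → ℤ) → List X → ℤ
  | a, f, [] => a [] * f []
  | a, f, y :: w => a [] * f (y :: w) + conv (fun v => a (y :: v)) f w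

omit [DecidableEq X] in
theorem conv_linear (c : ℤ) : ∀ (a b f : List X → ℤ) (w : List X),
    conv (fun v => a v + c * b v) f w = conv a f w + c * conv b f w
  | a, b, f, [] => by simp only [conv]; ring
  | a, b, f, y :: w => by
    simp only [conv]
    rw [conv_linear c (fun v => a (y :: v)) (fun v => b (y :: v)) f w]
    ring

omit [DecidableEq X] in
theorem conv_zero_left : ∀ (f : List X → ℤ) (w : List X), conv (fun _ => 0) f w = 0
  | _, [] => by simp [conv]
  | f, _ :: w => by simp [conv, conv_zero_left f w]

omit [DecidableEq X] in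
theorem conv_one (f : List X → ℤ) : conv one f = f := funext fun w => by
  cases w with
  | nil => simp [conv, one]
  | cons y w => simp [conv, one, conv_zero_left]

theorem mulGen_conv (x : X) (a f : List X → ℤ) : mulGen x (conv a f) = conv (mulGen x a) f :=
  funext fun w => by
    cases w with
    | nil => simp [mulGen, conv]
    | cons y w =>
      simp only [mulGen, conv]
      by_cases h : y = x
      · simp only [h, if_true]
        rw [show (fun v => a (x :: v) + a v) = fun v => a (x :: v) + 1 * a v by simp,
          conv_linear]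
        ring
      · simp [h]

theorem act_conv (g : FreeGroup X) :
    ∀ a f : List X → ℤ, act g (conv a f) = conv (act g a) f := by
  induction g using FreeGroup.induction_on with
  | C1 => simp
  | of x => intro a f; simpa [act, genPerm] using mulGen_conv x a f
  | inv_of x ih =>
    intro a f
    rw [map_inv, Equiv.Perm.inv_def, Equiv.symm_apply_eq, ih, Equiv.apply_symm_apply]
  | mul g h ihg ihh => intro a f; rw [map_mul, Equiv.Perm.mul_apply, ihh, ihg]; rfl

theorem magnus_mul (g h : FreeGroup X) : magnus (g * h) = conv (magnus g) (magnus h) := by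
  unfold magnus
  rw [← act_conv, conv_one, map_mul]
  rfl

theorem act_nil (g : FreeGroup X) : ∀ a : List X → ℤ, act g a [] = a [] := by
  induction g using FreeGroup.induction_on with
  | C1 => simp
  | of x => intro a; simp [act, genPerm, mulGen]
  | inv_of x => intro a; simp [act, genPerm, mulGenInv, Equiv.Perm.inv_def]
  | mul g h ihg ihh => intro a; rw [map_mul, Equiv.Perm.mul_apply, ihg, ihh]

theorem magnus_nil (g : FreeGroup X) : magnus g [] = 1 := act_nil g one

/-- The action of a single letter. -/
def letter (p : X × Bool) : Equiv.Perm (List X → ℤ) := act (FreeGroup.mk [p])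

theorem magnus_cons (p : X × Bool) (L : List (X × Bool)) :
    magnus (FreeGroup.mk (p :: L)) = letter p (magnus (FreeGroup.mk L)) := by
  rw [show FreeGroup.mk (p :: L) = FreeGroup.mk [p] * FreeGroup.mk L by
    rw [FreeGroup.mul_mk]; rfl, magnus, map_mul]
  rfl

theorem letter_cons_of_ne (p : X × Bool) (a : List X → ℤ) {y : X} (h : y ≠ p.1) (v : List X) :
    letter p a (y :: v) = a (y :: v) := by
  obtain ⟨x, b⟩ := p
  cases b <;> simp [letter, act, genPerm, mulGen, mulGenInv, Equiv.Perm.inv_def, h]

theorem letter_of_head_ne (p : X × Bool) (a : List X → ℤ) (v : List X)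
    (h : ∀ y ∈ v.head?, y ≠ p.1) : letter p a v = a v := by
  cases v with
  | nil => exact act_nil _ a
  | cons y v => exact letter_cons_of_ne p a (h y (by simp)) v

theorem letter_cons_self (p : X × Bool) (a : List X → ℤ) (v : List X)
    (h : ∀ y ∈ v.head?, y ≠ p.1) :
    letter p a (p.1 :: v) = a (p.1 :: v) + (if p.2 then 1 else -1) * a v := by
  obtain ⟨x, b⟩ := p
  cases b
  · have := letter_of_head_ne (x, false) a v h
    simp [letter, act, genPerm, Equiv.Perm.inv_def] at this
    simp [letter, act, genPerm, mulGenInv, Equiv.Perm.inv_def, this]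
    ring
  · simp [letter, act, genPerm, mulGen]

omit [DecidableEq X] in
theorem head_ne_of_isChain {y : X} {v : List X} (h : (y :: v).IsChain (· ≠ ·)) :
    ∀ z ∈ v.head?, z ≠ y := fun _ hz => ((List.isChain_cons.1 h).1 _ hz).symm

/-- The coefficient at the letters of the syllables of a reduced word is not zero. -/
theorem exists_coeff : ∀ (L : List (X × Bool)) (p : X × Bool), FreeGroup.IsReduced (p :: L) →
    ∃ (t : List X) (n : ℤ), 0 < n ∧ t.IsChain (· ≠ ·) ∧ (∀ y ∈ t.head?, y ≠ p.1) ∧
      magnus (FreeGroup.mk (p :: L)) t ≠ 0 ∧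
      magnus (FreeGroup.mk (p :: L)) (p.1 :: t) =
        (if p.2 then 1 else -1) * n * magnus (FreeGroup.mk (p :: L)) t ∧
      ∀ v : List X, v.IsChain (· ≠ ·) →
        (t.length + 1 < v.length ∨ v.length = t.length + 1 ∧ ∀ y ∈ v.head?, y ≠ p.1) →
        magnus (FreeGroup.mk (p :: L)) v = 0 := by
  intro L
  induction L with
  | nil =>
    intro p _
    rw [magnus_cons]
    have h1 : magnus (FreeGroup.mk ([] : List (X × Bool))) = one := by
      show act 1 one = one
      simp
    refine ⟨[], 1, one_pos, List.isChain_nil, by simp, ?_, ?_, ?_⟩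
    · rw [h1, letter_of_head_ne _ _ _ (by simp)]
      simp [one]
    · rw [letter_cons_self _ _ _ (by simp), letter_of_head_ne _ _ _ (by simp), h1]
      simp [one]
    · rintro (_ | ⟨y, v⟩) hv hlen
      · simp at hlen
      by_cases hy : y = p.1
      · subst hy
        rw [letter_cons_self _ _ _ (head_ne_of_isChain hv), h1]
        rcases v with _ | ⟨z, v⟩
        · simp at hlen
        · simp [one]
      · rw [letter_cons_of_ne _ _ hy, h1]; rfl
  | cons q L ih =>
    intro p hp
    rw [FreeGroup.isReduced_cons_cons] at hp
    obtain ⟨t, n, hn, htc, ht, hc, hs, hz⟩ := ih q hp.2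
    rw [magnus_cons]
    set a := magnus (FreeGroup.mk (q :: L)) with ha
    by_cases hx : p.1 = q.1
    · refine ⟨t, n + 1, by omega, htc, hx ▸ ht, ?_, ?_, fun v hv hlen => ?_⟩
      · rwa [letter_of_head_ne _ _ _ (hx ▸ ht)]
      · rw [letter_cons_self _ _ _ (hx ▸ ht), letter_of_head_ne _ _ _ (hx ▸ ht), hx, hs, hp.1 hx]
        ring
      · rcases v with _ | ⟨y, v⟩
        · simp at hlen
        by_cases hy : y = p.1
        · subst hy
          have hvh := head_ne_of_isChain hv
          have hlt : t.length + 1 < v.length + 1 := by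
            rcases hlen with h | ⟨_, h⟩
            · simpa using h
            · exact absurd rfl (h p.1 (by simp))
          rw [letter_cons_self _ _ _ hvh, hz _ hv (Or.inl (by simpa using hlt)),
            hz v hv.of_cons ?_]
          · simp
          · rcases Nat.lt_or_ge (t.length + 1) v.length with h | h
            · exact Or.inl h
            · exact Or.inr ⟨by omega, hx ▸ hvh⟩
        · rw [letter_cons_of_ne _ _ hy, hz _ hv ?_]
          rcases hlen with h | ⟨h, _⟩
          · exact Or.inl h
          · exact Or.inr ⟨h, by simp [← hx, hy]⟩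
    · have hh : ∀ y ∈ (q.1 :: t).head?, y ≠ p.1 := by simp [Ne.symm hx]
      have htq : (q.1 :: t).IsChain (· ≠ ·) :=
        List.isChain_cons.2 ⟨fun y hy => (ht y hy).symm, htc⟩
      have hc' : a (q.1 :: t) ≠ 0 := by
        rw [hs]
        exact mul_ne_zero (mul_ne_zero (by split_ifs <;> simp) hn.ne') hc
      refine ⟨q.1 :: t, 1, one_pos, htq, hh, ?_, ?_, fun v hv hlen => ?_⟩
      · rwa [letter_of_head_ne _ _ _ hh]
      · rw [letter_cons_self _ _ _ hh, letter_of_head_ne _ _ _ hh]
        have : a (p.1 :: q.1 :: t) = 0 :=
          hz _ (List.isChain_cons_cons.2 ⟨hx, htq⟩) (Or.inl (by simp))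
        rw [this]
        ring
      · rcases v with _ | ⟨y, v⟩
        · simp at hlen
        simp only [List.length_cons] at hlen
        by_cases hy : y = p.1
        · subst hy
          have hlt : t.length + 1 < v.length := by
            rcases hlen with h | ⟨_, h⟩
            · omega
            · exact absurd rfl (h p.1 (by simp))
          rw [letter_cons_self _ _ _ (head_ne_of_isChain hv),
            hz _ hv (Or.inl (by simp; omega)), hz v hv.of_cons (Or.inl hlt)]
          simp
        · rw [letter_cons_of_ne _ _ hy]
          exact hz _ hv (Or.inl (by rcases hlen with h | ⟨h, _⟩ <;> simp <;> omega))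

theorem magnus_ne_one {g : FreeGroup X} (hg : g ≠ 1) : magnus g ≠ one := by
  rw [← FreeGroup.mk_toWord (x := g)]
  rcases hL : g.toWord with _ | ⟨p, L⟩
  · exact absurd (FreeGroup.toWord_eq_nil_iff.1 hL) hg
  · obtain ⟨t, n, hn, -, -, hc, hs, -⟩ :=
      exists_coeff L p (hL ▸ FreeGroup.isReduced_toWord)
    intro h
    rw [h] at hc hs
    have : one (p.1 :: t) = (0 : ℤ) := rfl
    rw [this, eq_comm, mul_eq_zero, mul_eq_zero] at hs
    rcases hs with (h | h) | h
    · split_ifs at h <;> simp at h
    · omega
    · exact hc h

theorem magnus_injective : Function.Injective (magnus (X := X)) := by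
  intro g h e
  by_contra hne
  refine magnus_ne_one (g := g⁻¹ * h) (by simp [inv_mul_eq_one, hne]) ?_
  rw [magnus_mul, ← e, ← magnus_mul, inv_mul_cancel]
  simp [magnus]

omit [DecidableEq X] in
theorem conv_congr_left : ∀ (a f f' : List X → ℤ) (w : List X),
    (∀ v : List X, v.length ≤ w.length → f v = f' v) → conv a f w = conv a f' w
  | a, f, f', [], h => by simp [conv, h [] le_rfl]
  | a, f, f', y :: w, h => by
    simp only [conv]
    rw [h (y :: w) le_rfl, conv_congr_left _ f f' w fun v hv => h v (hv.trans (Nat.le_succ _))]

omit [DecidableEq X] in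
theorem conv_sub_left (a f f' : List X → ℤ) (w : List X)
    (h : ∀ v : List X, v.length < w.length → f v = f' v) :
    conv a f w - conv a f' w = a [] * (f w - f' w) := by
  cases w with
  | nil => simp only [conv]; ring
  | cons y w =>
    simp only [conv]
    rw [conv_congr_left _ f f' w fun v hv => h v (Nat.lt_succ_of_le hv)]
    ring

omit [DecidableEq X] in
theorem conv_sub_right : ∀ (a f f' : List X → ℤ) (w : List X),
    (∀ v : List X, v.length < w.length → f v = f' v) →
      conv f a w - conv f' a w = (f w - f' w) * a []
  | a, f, f', [], _ => by simp only [conv]; ring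
  | a, f, f', y :: w, h => by
    have ih := conv_sub_right a (fun v => f (y :: v)) (fun v => f' (y :: v)) w
      fun v hv => h (y :: v) (Nat.succ_lt_succ hv)
    simp only [conv]
    rw [h [] (Nat.succ_pos _)]
    linear_combination ih

/-- The order of the words: shorter first. -/
def wordRel (v w : List X) : Prop :=
  Prod.Lex (· < ·) WellOrderingRel (v.length, v) (w.length, w)

instance isWellOrder_wordRel : IsWellOrder (List X) wordRel :=
  RelEmbedding.isWellOrder (s := Prod.Lex (· < ·) WellOrderingRel)
    ⟨⟨fun v : List X => (v.length, v), fun _ _ h => (Prod.ext_iff.1 h).2⟩, Iff.rfl⟩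

/-- The order of the free group. -/
def magnusLT (g h : FreeGroup X) : Prop :=
  ∃ w, (∀ v, wordRel v w → magnus g v = magnus h v) ∧ magnus g w < magnus h w

theorem magnusLT_trichotomy (g h : FreeGroup X) : magnusLT g h ∨ g = h ∨ magnusLT h g := by
  classical
  by_cases e : g = h
  · exact Or.inr (Or.inl e)
  obtain ⟨w, hw⟩ : ∃ w, magnus g w ≠ magnus h w :=
    Function.ne_iff.1 (magnus_injective.ne e)
  obtain ⟨w, hw, hmin⟩ :=
    (IsWellFounded.wf (r := wordRel (X := X))).has_min {v | magnus g v ≠ magnus h v} ⟨w, hw⟩
  have h0 : ∀ v, wordRel v w → magnus g v = magnus h v := fun v hv =>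
    by_contra fun h1 => hmin v h1 hv
  rcases lt_or_gt_of_ne hw with h1 | h1
  · exact Or.inl ⟨w, h0, h1⟩
  · exact Or.inr (Or.inr ⟨w, fun v hv => (h0 v hv).symm, h1⟩)

theorem magnusLT_irrefl (g : FreeGroup X) : ¬magnusLT g g := fun ⟨_, _, h⟩ => lt_irrefl _ h

theorem magnusLT_trans {g h k : FreeGroup X} (h1 : magnusLT g h) (h2 : magnusLT h k) :
    magnusLT g k := by
  obtain ⟨w, hw, hlt⟩ := h1
  obtain ⟨w', hw', hlt'⟩ := h2
  rcases trichotomous_of (wordRel (X := X)) w w' with h | h | h
  · exact ⟨w, fun v hv => (hw v hv).trans (hw' v (trans_of wordRel hv h)), hw' w h ▸ hlt⟩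
  · subst h
    exact ⟨w, fun v hv => (hw v hv).trans (hw' v hv), hlt.trans hlt'⟩
  · exact ⟨w', fun v hv => (hw v (trans_of wordRel hv h)).trans (hw' v hv), (hw w' h).symm ▸ hlt'⟩

omit [DecidableEq X] in
theorem agree_of_short {f f' : List X → ℤ} {w : List X}
    (hw : ∀ v, wordRel v w → f v = f' v) (v : List X) (hv : v.length < w.length) : f v = f' v :=
  hw v (Prod.Lex.left _ _ hv)

omit [DecidableEq X] in
theorem wordRel_length {v w : List X} (h : wordRel v w) : v.length ≤ w.length := by
  rcases Prod.lex_def.1 h with h | h
  · exact h.le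
  · exact h.1.le

theorem magnusLT_mul_left {g h : FreeGroup X} (k : FreeGroup X) (h1 : magnusLT g h) :
    magnusLT (k * g) (k * h) := by
  obtain ⟨w, hw, hlt⟩ := h1
  refine ⟨w, fun v hv => ?_, ?_⟩
  · have := conv_sub_left (magnus k) (magnus g) (magnus h) v fun u hu =>
      agree_of_short hw u (hu.trans_le (wordRel_length hv))
    rw [hw v hv, sub_self, mul_zero, ← magnus_mul, ← magnus_mul] at this
    linarith
  · have := conv_sub_left (magnus k) (magnus g) (magnus h) w fun u hu => agree_of_short hw u hu
    rw [magnus_nil, one_mul, ← magnus_mul, ← magnus_mul] at this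
    linarith

theorem magnusLT_mul_right {g h : FreeGroup X} (k : FreeGroup X) (h1 : magnusLT g h) :
    magnusLT (g * k) (h * k) := by
  obtain ⟨w, hw, hlt⟩ := h1
  refine ⟨w, fun v hv => ?_, ?_⟩
  · have := conv_sub_right (magnus k) (magnus g) (magnus h) v fun u hu =>
      agree_of_short hw u (hu.trans_le (wordRel_length hv))
    rw [hw v hv, sub_self, zero_mul, ← magnus_mul, ← magnus_mul] at this
    linarith
  · have := conv_sub_right (magnus k) (magnus g) (magnus h) w fun u hu => agree_of_short hw u hu
    rw [magnus_nil, mul_one, ← magnus_mul, ← magnus_mul] at this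
    linarith

end Magnus

theorem exists_biOrder (G : Type u) [Group G] [IsFreeGroup G] :
    ∃ o : LinearOrder G,
      letI := o
      MulLeftStrictMono G ∧ MulRightStrictMono G := by
  classical
  let e := IsFreeGroup.toFreeGroup G
  let r : G → G → Prop := fun g h => Magnus.magnusLT (e g) (e h)
  have : IsStrictTotalOrder G r :=
    { irrefl := fun g => Magnus.magnusLT_irrefl _
      trans := fun _ _ _ => Magnus.magnusLT_trans
      trichotomous := fun g h hgh hhg => by
        rcases Magnus.magnusLT_trichotomy (e g) (e h) with h' | h' | h'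
        · exact absurd h' hgh
        · exact e.injective h'
        · exact absurd h' hhg }
  refine ⟨linearOrderOfSTO r, ⟨fun k g h hgh => ?_⟩, ⟨fun k g h hgh => ?_⟩⟩
  · show r (k * g) (k * h)
    show Magnus.magnusLT _ _
    rw [map_mul, map_mul]
    exact Magnus.magnusLT_mul_left _ hgh
  · show r (g * k) (h * k)
    show Magnus.magnusLT _ _
    rw [map_mul, map_mul]
    exact Magnus.magnusLT_mul_right _ hgh

end Vale.Agent.HNNAlg
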