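import Vale.Agent.HNNAlg.Action

/-!
Levels and blocks of the tree module, and how they behave under the stable letter and under
equivariant maps with shaped generators.
-/

namespace Vale.Agent.HNNAlg

open Module

universe u v w

variable {D : Type u} [DivisionRing D] (P : Datum D) {I : Type v} {J : Type w}

namespace Datum

/-- First direction of a target word. -/
def head (p : J × P.Word) : Option Bool := p.2.1.head?.map Sigma.fst

/-- Supported on words of length at most `k`. -/
def Below (k : ℕ) (m : P.M J) : Prop := ∀ p : J × P.Word, m p ≠ 0 → p.2.1.length ≤ k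

/-- The top level `k` of `m` lies in the kernel of the top part of `t ^ ε`. -/
def Pure (k : ℕ) (ε : Bool) (m : P.M J) : Prop :=
  ∀ p : J × P.Word, p.2.1.length = k →
    (m p ≠ 0 → P.head p = some (!ε)) ∧ m p ∈ P.E ε

variable {P}

lemma Below.mono {k l : ℕ} {m : P.M J} (h : P.Below k m) (hl : k ≤ l) : P.Below l m :=
  fun p hp => (h p hp).trans hl

lemma below_zero (k : ℕ) : P.Below k (0 : P.M J) := fun p hp => absurd rfl hp

lemma Below.add {k : ℕ} {m n : P.M J} (hm : P.Below k m) (hn : P.Below k n) :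
    P.Below k (m + n) := fun p hp => by
  by_contra h
  have h1 : m p = 0 := by_contra fun h' => h (hm p h')
  have h2 : n p = 0 := by_contra fun h' => h (hn p h')
  exact hp (by simp [h1, h2])

lemma Below.smul {k : ℕ} {m : P.M J} (hm : P.Below k m) (d : D) : P.Below k (d • m) :=
  fun p hp => hm p fun h => hp (by simp [h])

lemma below_sum {α : Type*} {k : ℕ} (s : Finset α) (g : α → P.M J)
    (h : ∀ a ∈ s, P.Below k (g a)) : P.Below k (∑ a ∈ s, g a) :=
  Finset.sum_induction g _ (fun _ _ => Below.add) (below_zero k) h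

lemma below_single {k : ℕ} {p : J × P.Word} (hp : p.2.1.length ≤ k) (d : D) :
    P.Below k (Finsupp.single p d) := fun q hq => by
  classical
  rw [Finsupp.single_apply] at hq
  split_ifs at hq with h
  · exact h ▸ hp
  · exact absurd rfl hq

lemma below_sub_one {k : ℕ} {m : P.M J} (hm : P.Below k m)
    (h0 : ∀ p : J × P.Word, p.2.1.length = k → m p = 0) : P.Below (k - 1) m := fun p hp => by
  have := hm p hp
  have : p.2.1.length ≠ k := fun h => hp (h0 p h)
  omega

lemma step_below {ε : Bool} {τ : P.idx ε} {j : J} {w : P.Word} {k : ℕ} (hw : w.1.length ≤ k) :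
    P.Below (k + 1) (P.step ε τ j w) := by
  rcases P.cons_or_cancel ε τ w with hc | ⟨rfl, h, l, hl, hh⟩
  · rw [P.step_cons w hc]
    exact below_single (by simpa using hw) _
  · obtain ⟨wl, hc⟩ := w
    subst hl
    rw [P.step_cancel h l hc hh]
    exact below_single (by simp at hw ⊢; omega) _

lemma T_below {ε : Bool} {k : ℕ} {m : P.M J} (hm : P.Below k m) :
    P.Below (k + 1) (P.T ε m) := by
  classical
  rw [← Finsupp.sum_single m, map_finsuppSum]
  refine below_sum _ _ fun p hp => ?_
  dsimp only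
  rw [T_single]
  exact below_sum _ _ fun τ _ => (step_below (hm p (Finsupp.mem_support_iff.1 hp))).smul _

/-- The coefficient of `t ^ ε * m` at a longest word. -/
lemma T_coeff {ε : Bool} {k : ℕ} {m : P.M J} (hm : P.Below k m) (j : J) (w : P.Word)
    (τ : P.idx ε) (hw : (⟨ε, τ⟩ :: w.1 : List P.Letter).IsChain P.Ok) (hk : w.1.length = k) :
    P.T ε m (j, ⟨⟨ε, τ⟩ :: w.1, hw⟩) = (P.σ ε ((P.bas ε).repr (m (j, w)) τ) : D) := by
  classical
  suffices ∀ p ∈ m.support, P.T ε (Finsupp.single p (m p)) (j, ⟨⟨ε, τ⟩ :: w.1, hw⟩) =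
      if p = (j, w) then (P.σ ε ((P.bas ε).repr (m p) τ) : D) else 0 by
    conv_lhs => rw [← Finsupp.sum_single m, map_finsuppSum, Finsupp.sum,
      Finsupp.finsetSum_apply, Finset.sum_congr rfl this, Finset.sum_ite_eq']
    split_ifs with h
    · rfl
    · rw [Finsupp.notMem_support_iff.1 h]
      simp
  intro p hp
  obtain ⟨i, u⟩ := p
  have hu : u.1.length ≤ k := hm _ (Finsupp.mem_support_iff.1 hp)
  rw [T_single, Finsupp.sum, Finsupp.finsetSum_apply]
  have key : ∀ τ', P.step ε τ' i u (j, ⟨⟨ε, τ⟩ :: w.1, hw⟩) =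
      if (i, u) = (j, w) ∧ τ' = τ then (1 : D) else 0 := by
    intro τ'
    rcases P.cons_or_cancel ε τ' u with hc | ⟨rfl, h, l, hl, hh⟩
    · rw [P.step_cons u hc, Finsupp.single_apply]
      refine if_congr ?_ rfl rfl
      rw [Prod.mk.injEq, Prod.mk.injEq, Subtype.mk.injEq, List.cons.injEq, Subtype.ext_iff]
      constructor
      · rintro ⟨h1, h2, h3⟩
        exact ⟨⟨h1, h3⟩, eq_of_heq (Sigma.mk.inj h2).2⟩
      · rintro ⟨⟨h1, h3⟩, rfl⟩
        exact ⟨h1, rfl, h3⟩
    · obtain ⟨ul, hc⟩ := u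
      subst hl
      rw [P.step_cancel h l hc hh, Finsupp.single_apply, if_neg, if_neg]
      · rintro ⟨he, rfl⟩
        rw [Prod.mk.injEq, Subtype.ext_iff] at he
        have hw' := hw
        simp only [← he.2] at hw'
        have := (List.isChain_cons_cons.1 hw').1
        exact this ⟨rfl, hh⟩
      · intro he
        have := congrArg (fun p => p.2.1.length) he
        simp at this hu
        omega
  simp only [Finsupp.smul_apply, smul_eq_mul, key]
  by_cases hiu : (i, u) = (j, w)
  · simp only [hiu, true_and, mul_ite, mul_one, mul_zero, Finset.sum_ite_eq',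
      Finsupp.mem_support_iff, if_true]
    split_ifs with h
    · rfl
    · simp [not_not.1 h]
  · simp [hiu]

lemma T_other {ε : Bool} {k : ℕ} {m : P.M J} (hm : P.Below k m) (q : J × P.Word)
    (hq : q.2.1.length = k + 1) (hε : P.head q ≠ some ε) : P.T ε m q = 0 := by
  classical
  rw [← Finsupp.sum_single m, map_finsuppSum, Finsupp.sum, Finsupp.finsetSum_apply]
  refine Finset.sum_eq_zero fun p hp => ?_
  have hp' := hm p (Finsupp.mem_support_iff.1 hp)
  rw [T_single, Finsupp.sum, Finsupp.finsetSum_apply]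
  refine Finset.sum_eq_zero fun τ _ => ?_
  rw [Finsupp.smul_apply]
  rcases P.cons_or_cancel ε τ p.2 with hc | ⟨rfl, h, l, hl, hh⟩
  · rw [P.step_cons _ hc, Finsupp.single_eq_of_ne, smul_zero]
    rintro rfl
    exact hε rfl
  · obtain ⟨i, ⟨ul, hc⟩⟩ := p
    simp only at hl
    subst hl
    rw [P.step_cancel h l hc hh, Finsupp.single_eq_of_ne, smul_zero]
    rintro rfl
    simp at hq hp'
    omega

lemma head_cons (ε : Bool) (τ : P.idx ε) (j : J) (l : List P.Letter)
    (h : (⟨ε, τ⟩ :: l : List P.Letter).IsChain P.Ok) :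
    P.head (j, ⟨⟨ε, τ⟩ :: l, h⟩) = some ε := rfl

lemma eq_cons_of_head {ε : Bool} {q : J × P.Word} (h : P.head q = some ε) :
    ∃ (τ : P.idx ε) (w : P.Word) (hw : (⟨ε, τ⟩ :: w.1 : List P.Letter).IsChain P.Ok),
      q = (q.1, ⟨⟨ε, τ⟩ :: w.1, hw⟩) := by
  obtain ⟨j, ⟨_ | ⟨⟨δ, τ⟩, l⟩, hc⟩⟩ := q
  · simp [head] at h
  · simp [head] at h
    subst h
    exact ⟨τ, ⟨l, hc.of_cons⟩, hc, rfl⟩

lemma T_pure {ε : Bool} {k : ℕ} {m : P.M J} (hm : P.Below k m) :
    P.Pure (k + 1) (!ε) (P.T ε m) := by
  intro q hq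
  by_cases hh : P.head q = some ε
  · refine ⟨fun _ => by rw [Bool.not_not]; exact hh, ?_⟩
    obtain ⟨τ, w, hw, hq'⟩ := eq_cons_of_head hh
    rw [hq', T_coeff hm _ w τ hw (by rw [hq'] at hq; simpa using hq)]
    exact SetLike.coe_mem _
  · rw [T_other hm q hq hh]
    exact ⟨fun h => absurd rfl h, zero_mem _⟩

lemma repr_mem {ε : Bool} {d : D} (hd : d ∈ P.E ε) (τ : P.idx ε) (hτ : τ ≠ P.one ε) :
    (P.bas ε).repr d τ = 0 := by
  classical
  have : d = (⟨d, hd⟩ : P.E ε) • P.bas ε (P.one ε) := by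
    rw [P.bas_one]; exact (mul_one d).symm
  rw [this, map_smul, Basis.repr_self, Finsupp.smul_apply, Finsupp.single_eq_of_ne hτ]
  simp

lemma mem_of_repr {ε : Bool} {d : D} (h : ∀ τ, τ ≠ P.one ε → (P.bas ε).repr d τ = 0) :
    d ∈ P.E ε := by
  classical
  have : (P.bas ε).repr d = Finsupp.single (P.one ε) ((P.bas ε).repr d (P.one ε)) := by
    ext τ
    by_cases hτ : τ = P.one ε
    · subst hτ; simp
    · rw [h τ hτ, Finsupp.single_eq_of_ne hτ]
  have h2 := (P.bas ε).linearCombination_repr d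
  rw [this, Finsupp.linearCombination_single, P.bas_one] at h2
  rw [← h2]
  show ((((P.bas ε).repr d) (P.one ε) : P.E ε) : D) * 1 ∈ P.E ε
  rw [mul_one]
  exact SetLike.coe_mem _

/-- Pure tops are exactly the ones which `t ^ ε` does not lengthen. -/
lemma pure_iff {ε : Bool} {k : ℕ} {m : P.M J} (hm : P.Below k m) :
    P.Pure k ε m ↔ P.Below k (P.T ε m) := by
  constructor
  · intro hp q hq
    by_contra hlt
    have hl : q.2.1.length = k + 1 := by
      have := T_below hm q hq
      omega
    by_cases hh : P.head q = some ε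
    · obtain ⟨τ, w, hw, hq'⟩ := eq_cons_of_head hh
      have hwk : w.1.length = k := by rw [hq'] at hl; simpa using hl
      rw [hq', T_coeff hm _ w τ hw hwk] at hq
      obtain ⟨h1, h2⟩ := hp (q.1, w) hwk
      by_cases hτ : τ = P.one ε
      · by_cases h0 : m (q.1, w) = 0
        · simp [h0] at hq
        · obtain ⟨wl, hc⟩ := w
          cases wl with
          | nil => simp [head] at h1; exact h0 h1
          | cons h l =>
            have := h1 h0
            simp [head] at this
            exact (List.isChain_cons_cons.1 hw).1 ⟨hτ, this⟩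
      · simp [repr_mem h2 τ hτ] at hq
    · exact hq (T_other hm q hl hh)
  · intro hb p hp
    have hcoef : ∀ (τ : P.idx ε) (hw : (⟨ε, τ⟩ :: p.2.1 : List P.Letter).IsChain P.Ok),
        (P.bas ε).repr (m p) τ = 0 := by
      intro τ hw
      by_contra hne
      have := hb (p.1, ⟨⟨ε, τ⟩ :: p.2.1, hw⟩) (by
        rw [T_coeff hm _ p.2 τ hw hp]
        simpa using hne)
      simp at this
      omega
    have hval : ∀ τ, τ ≠ P.one ε → (⟨ε, τ⟩ :: p.2.1 : List P.Letter).IsChain P.Ok :=
      fun τ hτ => (P.cons_or_cancel ε τ p.2).resolve_right fun h => hτ h.1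
    refine ⟨fun hne => ?_, mem_of_repr fun τ hτ => hcoef τ (hval τ hτ)⟩
    by_contra hh
    apply hne
    have h1 : (⟨ε, P.one ε⟩ :: p.2.1 : List P.Letter).IsChain P.Ok := by
      refine (P.cons_or_cancel ε _ p.2).resolve_right ?_
      rintro ⟨-, h, l, hl, hε⟩
      exact hh (by simp [head, hl, hε])
    apply (P.bas ε).repr.injective
    rw [map_zero]
    ext τ
    by_cases hτ : τ = P.one ε
    · subst hτ; simp [hcoef _ h1]
    · simp [hcoef τ (hval τ hτ)]

end Datum

end Vale.Agent.HNNAlg
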