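import Vale.Agent.HNNAlg.Faithful
import Vale.Agent.HNNAlg.FreeOrder

/-!
Group algebras of HNN extensions of free groups.
-/

namespace Vale.Agent.HNNAlg

universe u v

theorem main_ordered (K : Type u) [Field K] (H : Type v) [Group H] [LinearOrder H]
    [MulLeftStrictMono H] [MulRightStrictMono H] (A B : Subgroup H) [IsFreeGroup A] (φ : A ≃* B) :
    NoZeroDivisors (MonoidAlgebra K (HNNExtension H A B φ)) ∧
      IsStablyFiniteRing (MonoidAlgebra K (HNNExtension H A B φ)) := by
  obtain ⟨W⟩ := exists_model K φ
  exact W.result_model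

theorem main_hnn (K : Type u) [Field K] (H : Type v) [Group H] [IsFreeGroup H]
    (A B : Subgroup H) (φ : A ≃* B) :
    NoZeroDivisors (MonoidAlgebra K (HNNExtension H A B φ)) ∧
      IsStablyFiniteRing (MonoidAlgebra K (HNNExtension H A B φ)) := by
  obtain ⟨o, h₁, h₂⟩ := exists_biOrder H
  let := o
  exact main_ordered K H A B φ

end Vale.Agent.HNNAlg
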