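import Vale.Agent.HNNAlg.Series
import Vale.Agent.HNNAlg.Pencil.Hall

/-!
Full linear pencils over a free group are invertible in every series division ring, so the
rational closures of two free subgroups are isomorphic.
-/

namespace Vale.Agent.HNNAlg

universe u v

variable {K : Type u} [Field K] {H : Type v} [Group H] [LinearOrder H] [MulLeftStrictMono H]
  [MulRightStrictMono H]

namespace Pencil

open Matrix
open Series (coeff_zero coeff_single constHom singleHom supportedIn const_comm ext')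

variable {S : Type v} {m n : Type} [Fintype m] [Fintype n]

theorem const_mem (C : Subgroup H) (r : K) : constHom (H := H) r ∈ supportedIn C := fun g hg => by
  classical
  rw [show constHom (H := H) r = Series.single 1 r from rfl, coeff_single, ite_ne_right_iff] at hg
  exact hg.1 ▸ C.one_mem

theorem const_comm' (r : K) (x : Series K H) : constHom r * x = x * constHom r := const_comm r x

/-- The value of a linear representation, when it has one. -/
def Rep (f : FreeGroup S →* H) (P : Pen K S m m) (r c : m → K) (d : Series K H) : Prop :=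
  ∃ X : m → Series K H, (∀ i, X i ∈ supportedIn f.range) ∧
    mat f P *ᵥ X = (fun a => constHom (c a)) ∧ d = ∑ i, constHom (r i) * X i

theorem Rep.mem {f : FreeGroup S →* H} {P : Pen K S m m} {r c : m → K} {d : Series K H}
    (h : Rep f P r c d) : d ∈ supportedIn f.range := by
  obtain ⟨X, hX, -, rfl⟩ := h
  exact sum_mem fun i _ => mul_mem (const_mem _ _) (hX i)

omit [Fintype m] in
theorem mulVec_mul_right (M : Matrix m n (Series K H)) (X : n → Series K H) (t : Series K H)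
    (a : m) : (M *ᵥ fun b => X b * t) a = (M *ᵥ X) a * t := by
  simp [Matrix.mulVec, dotProduct, Finset.sum_mul, mul_assoc]

/-- A scalar as an affine form. -/
noncomputable def cst (S : Type v) (B : Matrix m n K) : Pen K S m n :=
  B.map (Finsupp.single none)

omit [Fintype m] [Fintype n] in
theorem mat_cst (f : FreeGroup S →* H) (B : Matrix m n K) :
    mat f (cst S B) = cmat (H := H) B := by
  ext1 a b
  simp only [mat, cst, cmat, Matrix.map_apply, ev_single]
  rfl

omit [Fintype m] [Fintype n] in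
theorem mat_zero (f : FreeGroup S →* H) : mat f (0 : Pen K S m n) = 0 :=
  Matrix.map_zero _ (map_zero _)

omit [Fintype m] [Fintype n] in
theorem mat_fromBlocks {p q : Type} (f : FreeGroup S →* H) (A : Pen K S m n) (B : Pen K S m q)
    (C : Pen K S p n) (D : Pen K S p q) :
    mat f (fromBlocks A B C D) = fromBlocks (mat f A) (mat f B) (mat f C) (mat f D) :=
  fromBlocks_map _ _ _ _ _

variable (ι₁ ι₂ : FreeGroup S →* H)

/-- Two series with a common linear representation. -/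
def Rel (x y : Series K H) : Prop :=
  ∃ (m : Type) (_ : Fintype m) (P : Pen K S m m) (r c : m → K),
    Hall P ∧ Rep ι₁ P r c x ∧ Rep ι₂ P r c y

variable {ι₁ ι₂}

theorem rel_const (a : K) : Rel ι₁ ι₂ (constHom (H := H) a) (constHom a) := by
  have hrep : ∀ f : FreeGroup S →* H,
      Rep f (cst S (1 : Matrix Unit Unit K)) (fun _ => a) (fun _ => 1) (constHom a) := fun f =>
    ⟨fun _ => 1, fun _ => one_mem _, by
      rw [mat_cst, cmat, Matrix.map_one _ (map_zero _) (map_one _), Matrix.one_mulVec]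
      simp,
      by simp⟩
  refine ⟨Unit, inferInstance, _, _, _, fun V => ?_, hrep ι₁, hrep ι₂⟩
  refine le_trans (le_of_eq ?_) (Submodule.finrank_mono
    (le_iSup (fun i => V.map (coef (cst S (1 : Matrix Unit Unit K)) i).mulVecLin) none))
  have : coef (cst S (1 : Matrix Unit Unit K)) none = 1 := by
    ext a b
    simp [coef, cst]
  show _ = Module.finrank K (V.map (coef (cst S (1 : Matrix Unit Unit K)) none).mulVecLin : Submodule K (Unit → K))
  rw [this, Matrix.mulVecLin_one, Submodule.map_id]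

theorem rel_neg {x y : Series K H} (h : Rel ι₁ ι₂ x y) : Rel ι₁ ι₂ (-x) (-y) := by
  obtain ⟨m, _, P, r, c, hP, ⟨X, hX, hPX, rfl⟩, Y, hY, hPY, rfl⟩ := h
  exact ⟨m, inferInstance, P, -r, c, hP, ⟨X, hX, hPX, by simp⟩, Y, hY, hPY, by simp⟩

theorem rel_add (h₁ : Function.Injective ι₁) {x y x' y' : Series K H} (h : Rel ι₁ ι₂ x y)
    (h' : Rel ι₁ ι₂ x' y') : Rel ι₁ ι₂ (x + x') (y + y') := by
  obtain ⟨m, _, P, r, c, hP, hx, hy⟩ := h
  obtain ⟨n, _, Q, s, e, hQ, hx', hy'⟩ := h'
  have hrep : ∀ (f : FreeGroup S →* H) (d d' : Series K H), Rep f P r c d → Rep f Q s e d' →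
      Rep f (fromBlocks P 0 0 Q) (Sum.elim r s) (Sum.elim c e) (d + d') := by
    rintro f _ _ ⟨X, hX, hPX, rfl⟩ ⟨Y, hY, hPY, rfl⟩
    refine ⟨Sum.elim X Y, Sum.rec hX hY, ?_, by rw [Fintype.sum_sum_type]; rfl⟩
    rw [mat_fromBlocks, mat_zero, mat_zero, fromBlocks_mulVec, Sum.elim_comp_inl,
      Sum.elim_comp_inr, hPX, hPY, Matrix.zero_mulVec, Matrix.zero_mulVec, add_zero, zero_add]
    funext a
    cases a <;> rfl
  refine ⟨m ⊕ n, inferInstance, _, _, _, (hall_iff ι₁ h₁ _).2 fun v hv => ?_,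
    hrep _ _ _ hx hx', hrep _ _ _ hy hy'⟩
  rw [mat_fromBlocks, mat_zero, mat_zero, fromBlocks_mulVec, Matrix.zero_mulVec,
    Matrix.zero_mulVec, add_zero, zero_add] at hv
  have e₁ := (hall_iff ι₁ h₁ P).1 hP _ (funext fun a => congrFun hv (Sum.inl a))
  have e₂ := (hall_iff ι₁ h₁ Q).1 hQ _ (funext fun a => congrFun hv (Sum.inr a))
  funext a
  cases a with
  | inl a => exact congrFun e₁ a
  | inr a => exact congrFun e₂ a

theorem rel_mul (h₁ : Function.Injective ι₁) {x y x' y' : Series K H} (h : Rel ι₁ ι₂ x y)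
    (h' : Rel ι₁ ι₂ x' y') : Rel ι₁ ι₂ (x * x') (y * y') := by
  obtain ⟨m, _, P, r, c, hP, hx, hy⟩ := h
  obtain ⟨n, _, Q, s, e, hQ, hx', hy'⟩ := h'
  set B : Pen K S m n := cst S (Matrix.of fun a b => -(c a * s b)) with hB
  have hrep : ∀ (f : FreeGroup S →* H) (d d' : Series K H), Rep f P r c d → Rep f Q s e d' →
      Rep f (fromBlocks P B 0 Q) (Sum.elim r 0) (Sum.elim 0 e) (d * d') := by
    rintro f _ _ ⟨X, hX, hPX, rfl⟩ hd'
    have hmem := hd'.mem
    obtain ⟨Y, hY, hPY, rfl⟩ := hd'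
    refine ⟨Sum.elim (fun i => X i * ∑ j, constHom (s j) * Y j) Y,
      Sum.rec (fun i => mul_mem (hX i) hmem) hY, ?_, ?_⟩
    · rw [mat_fromBlocks, mat_zero, fromBlocks_mulVec, Sum.elim_comp_inl, Sum.elim_comp_inr,
        Matrix.zero_mulVec, zero_add, hPY]
      funext a
      cases a with
      | inr a => rfl
      | inl a =>
        simp only [Sum.elim_inl, Pi.add_apply, mulVec_mul_right, hPX, hB, mat_cst, Pi.zero_apply,
          map_zero]
        simp [cmat, Matrix.mulVec, dotProduct, Finset.mul_sum, mul_assoc]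
    · rw [Fintype.sum_sum_type, Finset.sum_mul]
      simp [mul_assoc]
  refine ⟨m ⊕ n, inferInstance, _, _, _, (hall_iff ι₁ h₁ _).2 fun v hv => ?_,
    hrep _ _ _ hx hx', hrep _ _ _ hy hy'⟩
  rw [mat_fromBlocks, mat_zero, fromBlocks_mulVec, Matrix.zero_mulVec, zero_add] at hv
  have e₂ := (hall_iff ι₁ h₁ Q).1 hQ _ (funext fun a => congrFun hv (Sum.inr a))
  rw [e₂, Matrix.mulVec_zero, Matrix.mulVec_zero, add_zero] at hv
  have e₁ := (hall_iff ι₁ h₁ P).1 hP _ (funext fun a => congrFun hv (Sum.inl a))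
  funext a
  cases a with
  | inl a => exact congrFun e₁ a
  | inr a => exact congrFun e₂ a

/-- The bordered pencil of a representation. -/
noncomputable def border (P : Pen K S m m) (r c : m → K) : Pen K S (m ⊕ Unit) (m ⊕ Unit) :=
  fromBlocks P (cst S (Matrix.of fun a _ => c a)) (cst S (Matrix.of fun _ b => r b)) 0

theorem border_mulVec (f : FreeGroup S →* H) (P : Pen K S m m) (r c : m → K)
    (X : m → Series K H) (t : Series K H) :
    mat f (border P r c) *ᵥ Sum.elim X (fun _ => t) =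
      Sum.elim (fun a => (mat f P *ᵥ X) a + constHom (c a) * t)
        (fun _ => ∑ b, constHom (r b) * X b) := by
  rw [border, mat_fromBlocks, mat_zero, mat_cst, mat_cst, fromBlocks_mulVec, Sum.elim_comp_inl,
    Sum.elim_comp_inr, Matrix.zero_mulVec, add_zero]
  funext a
  cases a with
  | inl a => simp [cmat, Matrix.mulVec, dotProduct]
  | inr a => simp [cmat, Matrix.mulVec, dotProduct]

theorem not_hall_border {f : FreeGroup S →* H} (hf : Function.Injective f) {P : Pen K S m m}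
    {r c : m → K} (hd : Rep f P r c 0) : ¬ Hall (border P r c) := by
  intro h
  obtain ⟨X, -, hPX, h0⟩ := hd
  have := (hall_iff f hf _).1 h (Sum.elim X fun _ => -1) (by
    rw [border_mulVec]
    funext a
    cases a with
    | inl a => simp [hPX]
    | inr a => simp [← h0])
  have := congrFun this (Sum.inr ())
  simp at this

theorem eq_zero_of_not_hall_border {f : FreeGroup S →* H} (hf : Function.Injective f)
    {P : Pen K S m m} (hP : Hall P) {r c : m → K} {d : Series K H} (hd : Rep f P r c d)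
    (h : ¬ Hall (border P r c)) : d = 0 := by
  obtain ⟨X, -, hPX, rfl⟩ := hd
  obtain ⟨v, hv0, hv⟩ := exists_kernel_of_not_hall f _ h
  set t := v (Sum.inr ()) with ht
  have hsplit : v = Sum.elim (v ∘ Sum.inl) (fun _ => t) := by
    funext a
    cases a <;> rfl
  rw [hsplit, border_mulVec] at hv
  have e : (fun i => (v ∘ Sum.inl) i + X i * t) = 0 := (hall_iff f hf P).1 hP _ (by
    rw [← Pi.add_def, Matrix.mulVec_add]
    funext a
    rw [Pi.add_apply, mulVec_mul_right, hPX]
    exact congrFun hv (Sum.inl a))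
  have e' : ∀ i, v (Sum.inl i) = -(X i * t) := fun i => eq_neg_of_add_eq_zero_left (congrFun e i)
  have h2 : (∑ i, constHom (r i) * X i) * t = 0 := by
    have := congrFun hv (Sum.inr ())
    simpa [e', Finset.sum_mul, mul_assoc] using this
  refine (mul_eq_zero.1 h2).resolve_right fun ht0 => hv0 ?_
  funext a
  cases a with
  | inl a => simpa [ht0] using e' a
  | inr a => exact ht0

theorem rel_eq_zero_iff (h₁ : Function.Injective ι₁) (h₂ : Function.Injective ι₂)
    {x y : Series K H} (h : Rel ι₁ ι₂ x y) : x = 0 ↔ y = 0 := by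
  obtain ⟨m, _, P, r, c, hP, hx, hy⟩ := h
  constructor <;> rintro rfl
  · exact eq_zero_of_not_hall_border h₂ hP hy (not_hall_border h₁ hx)
  · exact eq_zero_of_not_hall_border h₁ hP hx (not_hall_border h₂ hy)

theorem rel_inv (h₁ : Function.Injective ι₁) (h₂ : Function.Injective ι₂) {x y : Series K H}
    (h : Rel ι₁ ι₂ x y) : Rel ι₁ ι₂ x⁻¹ y⁻¹ := by
  by_cases hx0 : x = 0
  · rw [hx0, (rel_eq_zero_iff h₁ h₂ h).1 hx0, _root_.inv_zero, ← map_zero (constHom (K := K) (H := H))]
    exact rel_const 0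
  have hy0 : y ≠ 0 := fun h0 => hx0 ((rel_eq_zero_iff h₁ h₂ h).2 h0)
  obtain ⟨m, _, P, r, c, hP, hx, hy⟩ := h
  have hrep : ∀ (f : FreeGroup S →* H) (d : Series K H), d ≠ 0 → Rep f P r c d →
      Rep f (border P r c) (Sum.elim 0 fun _ => -1) (Sum.elim 0 fun _ => 1) d⁻¹ := by
    intro f d hd0 hd
    have hmem : d⁻¹ ∈ supportedIn f.range := inv_mem hd.mem
    obtain ⟨X, hX, hPX, hd⟩ := hd
    refine ⟨Sum.elim (fun i => X i * d⁻¹) (fun _ => -d⁻¹),
      Sum.rec (fun i => mul_mem (hX i) hmem) (fun _ => neg_mem hmem), ?_, by simp⟩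
    rw [border_mulVec]
    funext a
    cases a with
    | inl a => simp [mulVec_mul_right, hPX]
    | inr a => simp [← mul_assoc, ← Finset.sum_mul, ← hd, mul_inv_cancel₀ hd0]
  refine ⟨m ⊕ Unit, inferInstance, _, _, _, ?_, hrep _ _ hx0 hx, hrep _ _ hy0 hy⟩
  by_contra hcon
  exact hx0 (eq_zero_of_not_hall_border h₁ hP hx hcon)

theorem rel_unique (h₁ : Function.Injective ι₁) (h₂ : Function.Injective ι₂)
    {x y x' y' : Series K H} (h : Rel ι₁ ι₂ x y) (h' : Rel ι₁ ι₂ x' y') : x = x' ↔ y = y' := by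
  have := rel_eq_zero_iff h₁ h₂ (rel_add h₁ h (rel_neg h'))
  rwa [← sub_eq_add_neg, ← sub_eq_add_neg, sub_eq_zero, sub_eq_zero] at this

theorem rel_inv_gen (h₁ : Function.Injective ι₁) (s : S) :
    Rel ι₁ ι₂ (singleHom (K := K) (ι₁ (FreeGroup.of s)))⁻¹
      (singleHom (K := K) (ι₂ (FreeGroup.of s)))⁻¹ := by
  have hone : ∀ g : H, singleHom (K := K) g⁻¹ = (singleHom (K := K) g)⁻¹ := map_inv singleHom
  have hmat : ∀ (f : FreeGroup S →* H) (X : Unit → Series K H) (a : Unit),
      (mat f (Matrix.of fun _ _ => Finsupp.single (some s) (1 : K)) *ᵥ X) a =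
        singleHom (f (FreeGroup.of s)) * X () := fun f X a => by
    simp only [mat, Matrix.mulVec, dotProduct, Matrix.map_apply, Matrix.of_apply, ev_single,
      Fintype.sum_unique]
    rfl
  have hne : ∀ g : H, singleHom (K := K) g ≠ 0 := fun g =>
    ((Group.isUnit g).map (singleHom (K := K))).ne_zero
  have hrep : ∀ f : FreeGroup S →* H,
      Rep f (Matrix.of fun (_ : Unit) (_ : Unit) => Finsupp.single (some s) (1 : K))
        (fun _ => 1) (fun _ => 1) (singleHom (K := K) (f (FreeGroup.of s)))⁻¹ := by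
    intro f
    refine ⟨fun _ => (singleHom (f (FreeGroup.of s)))⁻¹, fun _ => inv_mem ?_, funext fun a => ?_,
      by simp⟩
    · intro g hg
      classical
      rw [show singleHom (K := K) (f (FreeGroup.of s)) = Series.single _ 1 from rfl, coeff_single,
        ite_ne_right_iff] at hg
      exact hg.1 ▸ ⟨_, rfl⟩
    · rw [hmat, mul_inv_cancel₀ (hne _), map_one]
  refine ⟨Unit, inferInstance, _, _, _, (hall_iff ι₁ h₁ _).2 fun v hv => ?_, hrep ι₁, hrep ι₂⟩
  funext a
  have := congrFun hv a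
  rw [hmat] at this
  exact (mul_eq_zero.1 this).resolve_left (hne _)

theorem rel_single (h₁ : Function.Injective ι₁) (h₂ : Function.Injective ι₂) (w : FreeGroup S)
    (r : K) : Rel ι₁ ι₂ (Series.ofGA (MonoidAlgebra.single (ι₁ w) r))
      (Series.ofGA (MonoidAlgebra.single (ι₂ w) r)) := by
  have key : Rel ι₁ ι₂ (singleHom (K := K) (ι₁ w)) (singleHom (ι₂ w)) := by
    induction w using FreeGroup.induction_on with
    | C1 => simpa using rel_const (ι₁ := ι₁) (ι₂ := ι₂) (1 : K)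
    | of s => simpa using rel_inv h₁ h₂ (rel_inv_gen (ι₂ := ι₂) h₁ s)
    | inv_of s _ => simpa [map_inv] using rel_inv_gen (ι₂ := ι₂) h₁ s
    | mul a b ha hb => simpa using rel_mul h₁ ha hb
  simpa [Series.ofGA, MonoidAlgebra.liftNCRingHom_single] using rel_mul h₁ (rel_const r) key

end Pencil

open Pencil in
theorem exists_subfieldEquiv {S : Type v} (ι₁ ι₂ : FreeGroup S →* H)
    (h₁ : Function.Injective ι₁) (h₂ : Function.Injective ι₂) :
    ∃ (E₁ E₂ : Subfield (Series K H)) (σ : E₁ ≃+* E₂),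
      E₁ ≤ Series.supportedIn ι₁.range ∧ E₂ ≤ Series.supportedIn ι₂.range ∧
      ∀ (w : FreeGroup S) (r : K), ∃ (h : Series.ofGA (MonoidAlgebra.single (ι₁ w) r) ∈ E₁),
        (σ ⟨_, h⟩ : Series K H) = Series.ofGA (MonoidAlgebra.single (ι₂ w) r) := by
  classical
  have hone : Rel (K := K) ι₁ ι₂ 1 1 := by simpa using rel_const (ι₁ := ι₁) (ι₂ := ι₂) (1 : K)
  have hzero : Rel (K := K) ι₁ ι₂ 0 0 := by simpa using rel_const (ι₁ := ι₁) (ι₂ := ι₂) (0 : K)
  let E₁ : Subfield (Series K H) :=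
    { carrier := {x | ∃ y, Rel ι₁ ι₂ x y}
      mul_mem' := fun ⟨_, ha⟩ ⟨_, hb⟩ => ⟨_, rel_mul h₁ ha hb⟩
      one_mem' := ⟨_, hone⟩
      add_mem' := fun ⟨_, ha⟩ ⟨_, hb⟩ => ⟨_, rel_add h₁ ha hb⟩
      zero_mem' := ⟨_, hzero⟩
      neg_mem' := fun ⟨_, ha⟩ => ⟨_, rel_neg ha⟩
      inv_mem' := fun _ ⟨_, ha⟩ => ⟨_, rel_inv h₁ h₂ ha⟩ }
  let E₂ : Subfield (Series K H) :=
    { carrier := {y | ∃ x, Rel ι₁ ι₂ x y}
      mul_mem' := fun ⟨_, ha⟩ ⟨_, hb⟩ => ⟨_, rel_mul h₁ ha hb⟩
      one_mem' := ⟨_, hone⟩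
      add_mem' := fun ⟨_, ha⟩ ⟨_, hb⟩ => ⟨_, rel_add h₁ ha hb⟩
      zero_mem' := ⟨_, hzero⟩
      neg_mem' := fun ⟨_, ha⟩ => ⟨_, rel_neg ha⟩
      inv_mem' := fun _ ⟨_, ha⟩ => ⟨_, rel_inv h₁ h₂ ha⟩ }
  choose toY hto using fun x : E₁ => x.2
  choose fr hfr using fun y : E₂ => y.2
  have huniq : ∀ {x y y' : Series K H}, Rel ι₁ ι₂ x y → Rel ι₁ ι₂ x y' → y = y' := fun h h' =>
    (rel_unique h₁ h₂ h h').1 rfl
  let σ : E₁ ≃+* E₂ :=
    { toFun := fun x => ⟨toY x, _, hto x⟩
      invFun := fun y => ⟨fr y, _, hfr y⟩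
      left_inv := fun x => Subtype.ext ((rel_unique h₁ h₂ (hfr ⟨toY x, _, hto x⟩) (hto x)).2 rfl)
      right_inv := fun y => Subtype.ext (huniq (hto ⟨fr y, _, hfr y⟩) (hfr y))
      map_mul' := fun a b => Subtype.ext (huniq (hto (a * b)) (rel_mul h₁ (hto a) (hto b)))
      map_add' := fun a b => Subtype.ext (huniq (hto (a + b)) (rel_add h₁ (hto a) (hto b))) }
  refine ⟨E₁, E₂, σ, ?_, ?_, fun w r => ⟨⟨_, rel_single h₁ h₂ w r⟩, huniq (hto _) (rel_single h₁ h₂ w r)⟩⟩
  · rintro x ⟨y, m, _, P, r, c, -, hx, -⟩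
    exact hx.mem
  · rintro y ⟨x, m, _, P, r, c, -, -, hy⟩
    exact hy.mem

end Vale.Agent.HNNAlg
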