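import Mathlib

/-!
Malcev-Neumann series over a bi-ordered group: the division ring of functions with well-ordered
support.
-/

namespace Vale.Agent.HNNAlg

universe u v

variable (K : Type u) (H : Type v)

/-- Series with well-ordered support. -/
structure Series [Zero K] [LinearOrder H] where
  coeff : H → K
  isPWO : (Function.support coeff).IsPWO

variable [Field K] [Group H] [LinearOrder H] [MulLeftStrictMono H] [MulRightStrictMono H]

namespace Series

variable {K H}

theorem mulLeftMono_H : MulLeftMono H := mulLeftMono_of_mulLeftStrictMono H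

theorem mulRightMono_H : MulRightMono H := mulRightMono_of_mulRightStrictMono H

omit [Group H] [MulLeftStrictMono H] [MulRightStrictMono H] in
@[ext] theorem ext' {x y : Series K H} (h : ∀ g, x.coeff g = y.coeff g) : x = y := by
  cases x
  cases y
  simp only [mk.injEq]
  exact funext h

theorem isPWO_mul {s t : Set H} (hs : s.IsPWO) (ht : t.IsPWO) :
    ((fun p : H × H => p.1 * p.2) '' s ×ˢ t).IsPWO := by
  have := mulLeftMono_H (H := H)
  have := mulRightMono_H (H := H)
  exact (hs.prod ht).image_of_monotone fun p q h => mul_le_mul' h.1 h.2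

theorem exists_ne_zero_of_finsum {ι : Type*} {f : ι → K} (h : ∑ᶠ i, f i ≠ 0) : ∃ i, f i ≠ 0 :=
  not_forall.1 fun hall => h (finsum_eq_zero_of_forall_eq_zero hall)

theorem pairs_finite {s t : Set H} (hs : s.IsPWO) (ht : t.IsPWO) (k : H) :
    {g : H | g ∈ s ∧ g⁻¹ * k ∈ t}.Finite := by
  have := mulLeftMono_H (H := H)
  have := mulRightMono_H (H := H)
  by_contra hinf
  let f := Set.Infinite.natEmbedding _ hinf
  obtain ⟨e, he⟩ := hs.exists_monotone_subseq (f := fun n => (f n : H)) fun n => (f n).2.1
  obtain ⟨e', he'⟩ := ht.exists_monotone_subseq (f := fun n => ((f (e n) : H))⁻¹ * k)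
    fun n => (f (e n)).2.2
  have hlt : (f (e (e' 0)) : H) < f (e (e' 1)) := by
    refine lt_of_le_of_ne (he (e'.monotone zero_le_one)) fun h => ?_
    exact zero_ne_one (e'.injective (e.injective (f.injective (Subtype.ext h))))
  have h1 : ((f (e (e' 0)) : H))⁻¹ * k ≤ ((f (e (e' 1)) : H))⁻¹ * k := he' zero_le_one
  exact absurd (le_of_mul_le_mul_right' h1) (not_le.2 (inv_lt_inv_iff.2 hlt))

/-- The coefficients of a product. -/
noncomputable def mulCoeff (x y : Series K H) (k : H) : K :=
  ∑ᶠ g : H, x.coeff g * y.coeff (g⁻¹ * k)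

theorem support_mulCoeff (x y : Series K H) : Function.support (mulCoeff x y)
    ⊆ (fun p : H × H => p.1 * p.2) '' Function.support x.coeff ×ˢ Function.support y.coeff := by
  intro k hk
  obtain ⟨g, hg⟩ := exists_ne_zero_of_finsum hk
  exact ⟨(g, g⁻¹ * k), ⟨left_ne_zero_of_mul hg, right_ne_zero_of_mul hg⟩, mul_inv_cancel_left g k⟩

noncomputable instance : Zero (Series K H) := ⟨⟨0, by simp⟩⟩

noncomputable instance : Add (Series K H) :=
  ⟨fun x y => ⟨x.coeff + y.coeff, (x.isPWO.union y.isPWO).mono (Function.support_add _ _)⟩⟩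

noncomputable instance : Neg (Series K H) :=
  ⟨fun x => ⟨-x.coeff, by rw [Function.support_neg]; exact x.isPWO⟩⟩

noncomputable instance : Mul (Series K H) :=
  ⟨fun x y => ⟨mulCoeff x y, (isPWO_mul x.isPWO y.isPWO).mono (support_mulCoeff x y)⟩⟩

/-- The series with one term. -/
noncomputable def single (a : H) (r : K) : Series K H :=
  ⟨Set.indicator {a} fun _ => r, (Set.isPWO_singleton a).mono Set.support_indicator_subset⟩

noncomputable instance : One (Series K H) := ⟨single 1 1⟩

theorem coeff_add (x y : Series K H) (g : H) : (x + y).coeff g = x.coeff g + y.coeff g := rfl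

theorem coeff_zero (g : H) : (0 : Series K H).coeff g = 0 := rfl

theorem coeff_neg (x : Series K H) (g : H) : (-x).coeff g = -x.coeff g := rfl

theorem coeff_single [DecidableEq H] (a g : H) (r : K) :
    (single a r).coeff g = if g = a then r else 0 := by
  show Set.indicator {a} (fun _ => r) g = _
  rw [Set.indicator_apply]
  simp [Set.mem_singleton_iff]

theorem coeff_mul (x y : Series K H) (k : H) :
    (x * y).coeff k = ∑ᶠ g : H, x.coeff g * y.coeff (g⁻¹ * k) := rfl

theorem coeff_mul_eq_sum (x y : Series K H) (k : H) {F : Finset H}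
    (hF : ∀ g, x.coeff g ≠ 0 → y.coeff (g⁻¹ * k) ≠ 0 → g ∈ F) :
    (x * y).coeff k = ∑ g ∈ F, x.coeff g * y.coeff (g⁻¹ * k) :=
  finsum_eq_sum_of_support_subset _ fun g hg =>
    hF g (left_ne_zero_of_mul hg) (right_ne_zero_of_mul hg)

theorem coeff_single_mul' (a g : H) (r : K) (x : Series K H) :
    (single a r * x).coeff g = r * x.coeff (a⁻¹ * g) := by
  classical
  rw [coeff_mul_eq_sum _ _ _ (F := {a}) fun b hb _ => ?_, Finset.sum_singleton, coeff_single,
    if_pos rfl]
  rw [coeff_single, ite_ne_right_iff] at hb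
  simp [hb.1]

theorem coeff_mul_single' (a g : H) (r : K) (x : Series K H) :
    (x * single a r).coeff g = x.coeff (g * a⁻¹) * r := by
  classical
  rw [coeff_mul_eq_sum _ _ _ (F := {g * a⁻¹}) fun b _ hb => ?_, Finset.sum_singleton, coeff_single,
    if_pos (by group)]
  rw [coeff_single, ite_ne_right_iff] at hb
  simp [← hb.1]

noncomputable instance : AddCommGroup (Series K H) :=
  { AddGroup.ofLeftAxioms (G := Series K H)
      (fun x y z => ext' fun g => add_assoc _ _ _) (fun x => ext' fun g => zero_add _)
      (fun x => ext' fun g => neg_add_cancel _) with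
    add_comm := fun x y => ext' fun g => add_comm _ _ }

noncomputable instance : Ring (Series K H) where
  __ := (inferInstance : AddCommGroup (Series K H))
  left_distrib x y z := ext' fun k => by
    classical
    have h1 := pairs_finite x.isPWO y.isPWO k
    have h2 := pairs_finite x.isPWO z.isPWO k
    set F := h1.toFinset ∪ h2.toFinset with hF
    rw [coeff_add, coeff_mul_eq_sum x (y + z) k (F := F) ?_,
      coeff_mul_eq_sum x y k (F := F) fun g hg hg' => by simp [hF, hg, hg'],
      coeff_mul_eq_sum x z k (F := F) fun g hg hg' => by simp [hF, hg, hg'],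
      ← Finset.sum_add_distrib]
    · simp only [coeff_add, mul_add]
    · intro g hg hg'
      rw [coeff_add] at hg'
      by_cases h : y.coeff (g⁻¹ * k) = 0
      · rw [h, zero_add] at hg'
        simp [hF, hg, hg']
      · simp [hF, hg, h]
  right_distrib x y z := ext' fun k => by
    classical
    have h1 := pairs_finite x.isPWO z.isPWO k
    have h2 := pairs_finite y.isPWO z.isPWO k
    set F := h1.toFinset ∪ h2.toFinset with hF
    rw [coeff_add, coeff_mul_eq_sum (x + y) z k (F := F) ?_,
      coeff_mul_eq_sum x z k (F := F) fun g hg hg' => by simp [hF, hg, hg'],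
      coeff_mul_eq_sum y z k (F := F) fun g hg hg' => by simp [hF, hg, hg'],
      ← Finset.sum_add_distrib]
    · simp only [coeff_add, add_mul]
    · intro g hg hg'
      rw [coeff_add] at hg
      by_cases h : x.coeff g = 0
      · rw [h, zero_add] at hg
        simp [hF, hg, hg']
      · simp [hF, h, hg']
  zero_mul x := ext' fun k => by simp [coeff_mul, coeff_zero]
  mul_zero x := ext' fun k => by simp [coeff_mul, coeff_zero]
  one_mul x := ext' fun k => by
    show (single 1 1 * x).coeff k = _
    simp [coeff_single_mul']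
  mul_one x := ext' fun k => by
    show (x * single 1 1).coeff k = _
    simp [coeff_mul_single']
  mul_assoc x y z := ext' fun k => by
    classical
    have hA := pairs_finite x.isPWO (isPWO_mul y.isPWO z.isPWO) k
    have hG := pairs_finite (isPWO_mul x.isPWO y.isPWO) z.isPWO k
    rw [coeff_mul_eq_sum (x * y) z k (F := hG.toFinset) fun g hg hg' => by
        rw [Set.Finite.mem_toFinset]; exact ⟨support_mulCoeff x y hg, hg'⟩,
      coeff_mul_eq_sum x (y * z) k (F := hA.toFinset) fun g hg hg' => by
        rw [Set.Finite.mem_toFinset]; exact ⟨hg, support_mulCoeff y z hg'⟩]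
    have hleft : ∀ g ∈ hG.toFinset, (x * y).coeff g * z.coeff (g⁻¹ * k)
        = ∑ a ∈ hA.toFinset, x.coeff a * y.coeff (a⁻¹ * g) * z.coeff (g⁻¹ * k) := by
      intro g hg
      rw [Set.Finite.mem_toFinset] at hg
      rw [← Finset.sum_mul, coeff_mul_eq_sum x y g fun a ha ha' => ?_]
      rw [Set.Finite.mem_toFinset]
      exact ⟨ha, (a⁻¹ * g, g⁻¹ * k), ⟨ha', hg.2⟩, by group⟩
    rw [Finset.sum_congr rfl hleft, Finset.sum_comm]
    refine Finset.sum_congr rfl fun a ha => ?_
    rw [Set.Finite.mem_toFinset] at ha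
    rw [coeff_mul, ← finsum_comp_equiv (Equiv.mulLeft a⁻¹),
      finsum_eq_sum_of_support_subset _ (s := hG.toFinset) fun g hg => ?_, Finset.mul_sum]
    · refine Finset.sum_congr rfl fun g _ => ?_
      simp [mul_assoc]
    · simp only [Equiv.coe_mulLeft, Function.mem_support] at hg
      rw [Set.Finite.coe_toFinset]
      refine ⟨⟨(a, a⁻¹ * g), ⟨ha.1, left_ne_zero_of_mul hg⟩, mul_inv_cancel_left a g⟩, ?_⟩
      have := right_ne_zero_of_mul hg
      simpa [mul_assoc] using this

theorem coeff_sub (x y : Series K H) (g : H) : (x - y).coeff g = x.coeff g - y.coeff g := by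
  rw [sub_eq_add_neg, coeff_add, coeff_neg, sub_eq_add_neg]

theorem coeff_one [DecidableEq H] (g : H) : (1 : Series K H).coeff g = if g = 1 then 1 else 0 :=
  coeff_single 1 g 1

theorem coeff_sum {ι : Type*} (s : Finset ι) (f : ι → Series K H) (g : H) :
    (∑ i ∈ s, f i).coeff g = ∑ i ∈ s, (f i).coeff g := by
  classical
  induction s using Finset.induction_on with
  | empty => simp [coeff_zero]
  | insert a s ha ih => rw [Finset.sum_insert ha, coeff_add, ih, Finset.sum_insert ha]

/-- Products of lists from a set. -/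
def prods (s : Set H) (n : ℕ) : Set H :=
  List.prod '' {l : List H | l.length = n ∧ ∀ a ∈ l, a ∈ s}

theorem support_pow (f : Series K H) (n : ℕ) :
    Function.support (f ^ n).coeff ⊆ prods (Function.support f.coeff) n := by
  classical
  induction n with
  | zero =>
    intro k hk
    rw [Function.mem_support, pow_zero, coeff_one, ite_ne_right_iff] at hk
    exact ⟨[], ⟨rfl, by simp⟩, hk.1.symm⟩
  | succ n ih =>
    intro k hk
    rw [pow_succ'] at hk
    obtain ⟨⟨a, b⟩, ⟨ha, hb⟩, rfl⟩ := support_mulCoeff _ _ hk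
    obtain ⟨l, ⟨hl, hmem⟩, rfl⟩ := ih hb
    refine ⟨a :: l, ⟨by simp [hl], ?_⟩, by simp⟩
    simpa using And.intro ha hmem

theorem prod_lt_of_sublist {l₁ l₂ : List H} (h : l₁.Sublist l₂) (hlen : l₁.length < l₂.length)
    (h₁ : ∀ a ∈ l₂, 1 < a) : l₁.prod < l₂.prod := by
  have := mulLeftMono_H (H := H)
  have := mulRightMono_H (H := H)
  induction h with
  | slnil => simp at hlen
  | cons a h ih =>
    simp only [List.forall_mem_cons] at h₁
    rw [List.prod_cons]
    exact lt_of_le_of_lt (h.prod_le_prod' fun b hb => (h₁.2 b hb).le)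
      (lt_mul_of_one_lt_left' _ h₁.1)
  | cons_cons a h ih =>
    simp only [List.forall_mem_cons] at h₁
    simp only [List.prod_cons]
    exact mul_lt_mul_right (ih (by simpa using hlen) h₁.2) a

theorem isPWO_iUnion_prods {s : Set H} (hs : s.IsPWO) (h1 : ∀ a ∈ s, 1 < a) :
    (⋃ n, prods s n).IsPWO := by
  have := mulLeftMono_H (H := H)
  have := mulRightMono_H (H := H)
  have hW : (List.prod '' {l : List H | ∀ a ∈ l, a ∈ s}).IsPWO :=
    (hs.partiallyWellOrderedOn_sublistForall₂ (· ≤ ·)).image_of_monotone_on
      fun l₁ _ l₂ hl₂ h12 => h12.prod_le_prod' fun a ha => (h1 a (hl₂ a ha)).le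
  refine hW.mono (Set.iUnion_subset fun n => ?_)
  rintro _ ⟨l, ⟨-, hl⟩, rfl⟩
  exact ⟨l, hl, rfl⟩

theorem finite_prods {s : Set H} (hs : s.IsPWO) (h1 : ∀ a ∈ s, 1 < a) (k : H) :
    {n | k ∈ prods s n}.Finite := by
  have := mulLeftMono_H (H := H)
  have := mulRightMono_H (H := H)
  by_contra hinf
  let f := Set.Infinite.natEmbedding _ hinf
  have hf : ∀ n, ∃ l : List H, (l.length = (f n : ℕ) ∧ ∀ a ∈ l, a ∈ s) ∧ l.prod = k :=
    fun n => (f n).2
  choose l hl hk using hf
  have : IsPreorder (List H) (List.SublistForall₂ (α := H) (· ≤ ·)) :=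
    { refl := fun a => refl_of (List.SublistForall₂ (α := H) (· ≤ ·)) a,
      trans := fun a b c => trans_of (List.SublistForall₂ (α := H) (· ≤ ·)) }
  obtain ⟨e, he⟩ := (hs.partiallyWellOrderedOn_sublistForall₂ (· ≤ ·)).exists_monotone_subseq
    (f := l) fun n => (hl n).2
  have hlen : ∀ i, (l (e i)).length ≤ (l (e (i + 1))).length := fun i => by
    obtain ⟨m, hall, hsub⟩ := List.sublistForall₂_iff.1 (he i (i + 1) (Nat.le_succ i))
    exact hall.length_eq ▸ hsub.length_le
  obtain ⟨m, hall, hsub⟩ := List.sublistForall₂_iff.1 (he 0 1 zero_le_one)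
  have hne : (l (e 0)).length ≠ (l (e 1)).length := fun h => by
    rw [(hl (e 0)).1, (hl (e 1)).1] at h
    exact zero_ne_one (e.injective (f.injective (Subtype.ext h)))
  have hlt : m.prod < (l (e 1)).prod := prod_lt_of_sublist hsub
    (hall.length_eq ▸ lt_of_le_of_ne (hlen 0) hne) fun a ha => h1 a ((hl (e 1)).2 a ha)
  have hle : (l (e 0)).prod ≤ m.prod := hall.prod_le_prod'
  exact absurd (hle.trans_lt hlt) (by rw [hk, hk]; exact lt_irrefl k)

theorem exists_mul_geom (f : Series K H) (hf : ∀ g, f.coeff g ≠ 0 → 1 < g) :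
    ∃ G : Series K H, (1 - f) * G = 1 := by
  classical
  have hs := f.isPWO
  set s := Function.support f.coeff
  have hfin : ∀ k, {n | (f ^ n).coeff k ≠ 0}.Finite := fun k =>
    (finite_prods hs hf k).subset fun n hn => support_pow f n hn
  let G : Series K H := ⟨fun k => ∑ᶠ n, (f ^ n).coeff k,
    (isPWO_iUnion_prods hs hf).mono fun k hk => by
      obtain ⟨n, hn⟩ := exists_ne_zero_of_finsum hk
      exact Set.mem_iUnion.2 ⟨n, support_pow f n hn⟩⟩
  refine ⟨G, ext' fun k => ?_⟩
  have hg1 : (Function.support (1 - f).coeff).IsPWO := (1 - f).isPWO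
  let F : Finset H := insert 1 (pairs_finite hg1 (isPWO_iUnion_prods hs hf) k).toFinset
  obtain ⟨N, hN⟩ := ((hfin k).union (F.finite_toSet.biUnion fun g _ => hfin (g⁻¹ * k))).bddAbove
  have hbd : ∀ k', (k' = k ∨ ∃ g ∈ F, g⁻¹ * k = k') → ∀ n, (f ^ n).coeff k' ≠ 0 → n < N + 1 := by
    intro k' hk' n hn
    refine Nat.lt_succ_of_le (hN ?_)
    rcases hk' with rfl | ⟨g, hg, rfl⟩
    · exact Or.inl hn
    · exact Or.inr (Set.mem_biUnion hg hn)
  have hGN : ((1 - f) * G).coeff k
      = ((1 - f) * ∑ n ∈ Finset.range (N + 1), f ^ n).coeff k := by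
    have hsub : ∀ (y : Series K H),
        (∀ g, y.coeff g ≠ 0 → g ∈ ⋃ n, prods s n) → ∀ g, (1 - f).coeff g ≠ 0 →
          y.coeff (g⁻¹ * k) ≠ 0 → g ∈ F := fun y hy g hg hg' => by
      refine Finset.mem_insert_of_mem ?_
      rw [Set.Finite.mem_toFinset]
      exact ⟨hg, hy _ hg'⟩
    rw [coeff_mul_eq_sum _ _ _ (hsub G fun g hg => ?_), coeff_mul_eq_sum _ _ _ (hsub _ fun g hg => ?_)]
    · refine Finset.sum_congr rfl fun g hg => ?_
      rw [coeff_sum]
      congr 1
      exact finsum_eq_sum_of_support_subset _ fun n hn => by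
        rw [Finset.coe_range]; exact hbd _ (Or.inr ⟨g, hg, rfl⟩) n hn
    · rw [coeff_sum] at hg
      obtain ⟨n, -, hn⟩ := Finset.exists_ne_zero_of_sum_ne_zero hg
      exact Set.mem_iUnion.2 ⟨n, support_pow f n hn⟩
    · obtain ⟨n, hn⟩ := exists_ne_zero_of_finsum hg
      exact Set.mem_iUnion.2 ⟨n, support_pow f n hn⟩
  have hzero : (f ^ (N + 1)).coeff k = 0 := by
    by_contra h
    exact lt_irrefl _ (hbd k (Or.inl rfl) (N + 1) h)
  rw [hGN, mul_neg_geom_sum, coeff_sub, hzero, sub_zero]

theorem exists_right_inv {x : Series K H} (hx : x ≠ 0) : ∃ y, x * y = 1 := by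
  classical
  have hne : (Function.support x.coeff).Nonempty := by
    by_contra h
    rw [Set.not_nonempty_iff_eq_empty, Function.support_eq_empty_iff] at h
    exact hx (ext' fun g => by rw [h]; rfl)
  set g₀ := x.isPWO.isWF.min hne with hg₀
  set c := x.coeff g₀ with hc
  have hc0 : c ≠ 0 := x.isPWO.isWF.min_mem hne
  set f := 1 - single g₀⁻¹ c⁻¹ * x with hf
  have hfpos : ∀ g, f.coeff g ≠ 0 → 1 < g := by
    intro g hg
    rw [hf, coeff_sub, coeff_one, coeff_single_mul', inv_inv] at hg
    rcases eq_or_ne g 1 with rfl | hg1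
    · simp [← hc, hc0] at hg
    rw [if_neg hg1, zero_sub, neg_ne_zero] at hg
    have hle : g₀ ≤ g₀ * g := x.isPWO.isWF.min_le hne (right_ne_zero_of_mul hg)
    refine lt_of_le_of_ne ?_ (Ne.symm hg1)
    by_contra h
    exact absurd hle (not_le.2 (mul_lt_of_lt_one_right' g₀ (not_le.1 h)))
  obtain ⟨G, hG⟩ := exists_mul_geom f hfpos
  refine ⟨G * single g₀⁻¹ c⁻¹, ?_⟩
  have hs : ∀ (a b : H) (r s : K), (single a r : Series K H) * single b s = single (a * b) (r * s) :=
    fun a b r s => ext' fun g => by
      rw [coeff_single_mul', coeff_single, coeff_single]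
      by_cases h : g = a * b
      · simp [h]
      · rw [if_neg h, if_neg (fun h' => h (by rw [← h', mul_inv_cancel_left])), mul_zero]
  have h1 : single g₀ c * (single g₀⁻¹ c⁻¹ * x) = x := by
    rw [← mul_assoc, hs, mul_inv_cancel, mul_inv_cancel₀ hc0]
    exact one_mul x
  rw [hf, sub_sub_cancel] at hG
  calc x * (G * single g₀⁻¹ c⁻¹)
      = single g₀ c * ((single g₀⁻¹ c⁻¹ * x) * G) * single g₀⁻¹ c⁻¹ := by
        simp only [mul_assoc]; rw [← mul_assoc (single g₀ c), ← mul_assoc (single g₀ c * _)]
        simp only [← mul_assoc] at h1 ⊢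
        rw [h1]
    _ = 1 := by
        rw [hG, mul_one, hs, mul_inv_cancel, mul_inv_cancel₀ hc0]
        rfl

end Series

noncomputable instance instDivisionRingSeries : DivisionRing (Series K H) :=
  haveI : Nontrivial (Series K H) := ⟨⟨1, 0, fun h => by
    classical
    have := congrArg (fun x : Series K H => x.coeff 1) h
    simp [Series.coeff_one, Series.coeff_zero] at this⟩⟩
  DivisionRing.ofIsUnitOrEqZero fun a => by
    by_cases ha : a = 0
    · exact Or.inr ha
    · left
      obtain ⟨y, hy⟩ := Series.exists_right_inv ha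
      have hy0 : y ≠ 0 := by
        intro h
        rw [h, mul_zero] at hy
        exact zero_ne_one hy
      obtain ⟨z, hz⟩ := Series.exists_right_inv hy0
      refine ⟨⟨a, y, hy, ?_⟩, rfl⟩
      have : a = z := by rw [← mul_one a, ← hz, ← mul_assoc, hy, one_mul]
      rw [this]
      exact hz

namespace Series

variable {K H}

/-- The inclusion of the group. -/
noncomputable def singleHom : H →* Series K H where
  toFun a := single a 1
  map_one' := rfl
  map_mul' a b := ext' fun g => by
    classical
    rw [coeff_single_mul', coeff_single, coeff_single, one_mul]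
    simp [inv_mul_eq_iff_eq_mul]

/-- The inclusion of the scalars. -/
noncomputable def constHom : K →+* Series K H where
  toFun r := single 1 r
  map_one' := rfl
  map_mul' r s := ext' fun g => by
    classical
    rw [coeff_single_mul', coeff_single, coeff_single, inv_one, one_mul]
    split_ifs <;> simp
  map_zero' := ext' fun g => by simp [single, coeff_zero]
  map_add' r s := ext' fun g => by
    classical
    simp only [coeff_single, coeff_add]
    split_ifs <;> simp

theorem const_comm (r : K) (x : Series K H) : single 1 r * x = x * single 1 r := ext' fun g => by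
  rw [coeff_single_mul', coeff_mul_single', inv_one, one_mul, mul_one, mul_comm]

theorem const_commute (r : K) (a : H) : Commute (constHom (H := H) r) (singleHom (K := K) a) :=
  const_comm r _

/-- The group algebra inside the series. -/
noncomputable def ofGA : MonoidAlgebra K H →+* Series K H :=
  MonoidAlgebra.liftNCRingHom constHom singleHom const_commute

theorem ofGA_single (a : H) (r : K) : ofGA (MonoidAlgebra.single a r) = single a r := by
  classical
  rw [ofGA, MonoidAlgebra.liftNCRingHom_single]
  refine ext' fun g => ?_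
  show (single 1 r * single a 1).coeff g = _
  rw [coeff_single_mul', inv_one, one_mul, coeff_single, coeff_single]
  split_ifs <;> simp

theorem coeff_ofGA (a : MonoidAlgebra K H) (g : H) : (ofGA a).coeff g = a.coeff g := by
  classical
  induction a using MonoidAlgebra.induction_linear with
  | zero => simp [coeff_zero]
  | add a b ha hb => simp [coeff_add, ha, hb]
  | single b r => rw [ofGA_single, coeff_single, MonoidAlgebra.coeff_single_apply]; simp [eq_comm]

theorem coeff_single_mul (a g : H) (r : K) (x : Series K H) :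
    (ofGA (MonoidAlgebra.single a r) * x).coeff g = r * x.coeff (a⁻¹ * g) := by
  rw [ofGA_single, coeff_single_mul']

theorem coeff_mul_single (a g : H) (r : K) (x : Series K H) :
    (x * ofGA (MonoidAlgebra.single a r)).coeff g = x.coeff (g * a⁻¹) * r := by
  rw [ofGA_single, coeff_mul_single']

theorem ofGA_single_comm (r : K) (x : Series K H) :
    ofGA (MonoidAlgebra.single 1 r) * x = x * ofGA (MonoidAlgebra.single 1 r) := by
  rw [ofGA_single, const_comm]

/-- For a fixed product only finitely many pairs of support points occur. -/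
theorem finite_pairs (x y : Series K H) (a k : H) :
    {g : H | x.coeff g ≠ 0 ∧ y.coeff (a * g⁻¹ * k) ≠ 0}.Finite := by
  have := mulLeftMono_H (H := H)
  have := mulRightMono_H (H := H)
  have ht : ((fun h => a⁻¹ * h * k⁻¹) '' Function.support y.coeff).IsPWO :=
    y.isPWO.image_of_monotone fun p q h => mul_le_mul' (mul_le_mul' le_rfl h) le_rfl
  refine (pairs_finite x.isPWO ht 1).subset fun g hg => ⟨hg.1, a * g⁻¹ * k, hg.2, ?_⟩
  group

/-- The restriction of a series to a set. -/
noncomputable def restrict (C : Set H) (x : Series K H) : Series K H :=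
  ⟨C.indicator x.coeff, x.isPWO.mono (by rw [Set.support_indicator]; exact Set.inter_subset_right)⟩

/-- Series supported in a subgroup form a subfield. -/
noncomputable def supportedIn (C : Subgroup H) : Subfield (Series K H) where
  carrier := {x | ∀ g, x.coeff g ≠ 0 → g ∈ C}
  zero_mem' g hg := absurd (coeff_zero g) hg
  one_mem' g hg := by
    classical
    rw [coeff_one, ite_ne_right_iff] at hg
    exact hg.1 ▸ C.one_mem
  add_mem' {x y} hx hy g hg := by
    by_contra h
    rw [coeff_add, not_imp_comm.1 (hx g) h, not_imp_comm.1 (hy g) h, add_zero] at hg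
    exact hg rfl
  neg_mem' {x} hx g hg := hx g (by simpa [coeff_neg] using hg)
  mul_mem' {x y} hx hy g hg := by
    obtain ⟨⟨a, b⟩, ⟨ha, hb⟩, rfl⟩ := support_mulCoeff x y hg
    exact C.mul_mem (hx a ha) (hy b hb)
  inv_mem' x hx g hg := by
    classical
    by_cases h0 : x = 0
    · rw [h0, inv_zero] at hg
      exact absurd (coeff_zero g) hg
    have hr : x * restrict (C : Set H) x⁻¹ = 1 := ext' fun k => by
      by_cases hk : k ∈ C
      · rw [← mul_inv_cancel₀ h0, coeff_mul, coeff_mul]
        refine finsum_congr fun a => ?_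
        by_cases ha : x.coeff a = 0
        · rw [ha, zero_mul, zero_mul]
        · simp [restrict, C.mul_mem (C.inv_mem (hx a ha)) hk]
      · rw [coeff_one, if_neg fun h : k = 1 => hk (h ▸ C.one_mem), coeff_mul]
        refine finsum_eq_zero_of_forall_eq_zero fun a => ?_
        by_cases ha : x.coeff a = 0
        · rw [ha, zero_mul]
        · have : a⁻¹ * k ∉ C := fun h =>
            hk (by simpa using C.mul_mem (hx a ha) h)
          simp [restrict, this]
    rw [← eq_inv_of_mul_eq_one_right hr] at hg
    exact Set.mem_of_indicator_ne_zero hg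

theorem mem_supportedIn (C : Subgroup H) (x : Series K H) :
    x ∈ supportedIn C ↔ ∀ g, x.coeff g ≠ 0 → g ∈ C := Iff.rfl

end Series

end Vale.Agent.HNNAlg
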