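import Vale.Agent.HNNAlg.Level

/-!
Shapes of tuples of generators (vertex roots and edge roots), formal levels and moves.
-/

namespace Vale.Agent.HNNAlg

open Module

universe u v w

variable {D : Type u} [DivisionRing D] {P : Datum D} {I : Type v} {J : Type w}

namespace Datum

/-- Degrees of generators; `f i = some ε` marks an edge generator, with pure top. -/
structure Shape (P : Datum D) (b : I → P.M J) where
  d : I → ℕ
  f : I → Option Bool
  below : ∀ i, P.Below (d i) (b i)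
  pos : ∀ i ε, f i = some ε → 1 ≤ d i
  isPure : ∀ i ε, f i = some ε → P.Pure (d i) ε (b i)

/-- The image of a formal basis vector. -/
noncomputable def bv (b : I → P.M J) (p : I × P.Word) : P.M J := P.eval p.2.1 (b p.1)

lemma ext_single (b : I → P.M J) (p : I × P.Word) (c : D) :
    (P.ext b).map (Finsupp.single p c) = c • bv b p := by
  simp [ext, bv]

lemma ext_apply (b : I → P.M J) (x : P.M I) (q : J × P.Word) :
    (P.ext b).map x q = x.sum fun p c => c * bv b p q := by
  classical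
  simp [ext, bv, Finsupp.linearCombination_apply, Finsupp.sum, Finsupp.finsetSum_apply]

lemma eval_zero (l : List P.Letter) : P.eval l (0 : P.M J) = 0 := by
  induction l with
  | nil => rfl
  | cons h l ih => simp [eval, ih]

lemma single_cons (i : I) (ε : Bool) (τ : P.idx ε) (w : P.Word)
    (hw : (⟨ε, τ⟩ :: w.1 : List P.Letter).IsChain P.Ok) :
    (Finsupp.single (i, (⟨⟨ε, τ⟩ :: w.1, hw⟩ : P.Word)) 1 : P.M I) =
      P.T ε (P.bas ε τ • Finsupp.single (i, w) 1) := by
  rw [Finsupp.smul_single, smul_eq_mul, mul_one, T_single_bas, P.step_cons w hw]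

/-- Equivariant maps are determined by their values on the generators. -/
lemma Equiv'.agree {K : Type*} (φ ψ : P.Equiv' I K) (i : I)
    (h : φ.map (Finsupp.single (i, P.nil) 1) = ψ.map (Finsupp.single (i, P.nil) 1))
    (w : P.Word) : φ.map (Finsupp.single (i, w) 1) = ψ.map (Finsupp.single (i, w) 1) := by
  obtain ⟨l, hl⟩ := w
  induction l with
  | nil => exact h
  | cons a l ih =>
    obtain ⟨ε, τ⟩ := a
    rw [single_cons i ε τ ⟨l, hl.of_cons⟩ hl, φ.map_T, ψ.map_T, φ.map.map_smul,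
      ψ.map.map_smul, ih hl.of_cons]

lemma Equiv'.map_eq {K : Type*} (φ ψ : P.Equiv' I K)
    (h : ∀ i, φ.map (Finsupp.single (i, P.nil) 1) = ψ.map (Finsupp.single (i, P.nil) 1)) :
    φ.map = ψ.map := by
  refine Finsupp.lhom_ext fun p c => ?_
  rw [← mul_one c, ← smul_eq_mul, ← Finsupp.smul_single, map_smul, map_smul,
    Equiv'.agree φ ψ p.1 (h p.1) p.2]

/-- Composition of equivariant maps. -/
noncomputable def Equiv'.comp {K : Type*} (φ : P.Equiv' J K) (ψ : P.Equiv' I J) : P.Equiv' I K where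
  map := φ.map.comp ψ.map
  map_T ε m := by simp [ψ.map_T, φ.map_T]

/-- The identity map. -/
noncomputable def Equiv'.id (P : Datum D) (I : Type v) : P.Equiv' I I where
  map := LinearMap.id
  map_T _ _ := rfl

/-- `b'` is obtained from `b` by invertible moves. -/
def Related (b b' : I → P.M J) : Prop :=
  ∃ γ : P.Equiv' I I, Function.Injective γ.map ∧ (P.ext b).map = (P.ext b').map.comp γ.map

lemma Related.refl (b : I → P.M J) : Related b b :=
  ⟨Equiv'.id P I, fun _ _ h => h, rfl⟩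

lemma Related.trans {b b' b'' : I → P.M J} (h : Related b b') (h' : Related b' b'') :
    Related b b'' := by
  obtain ⟨γ, hγ, e⟩ := h
  obtain ⟨δ, hδ, e'⟩ := h'
  exact ⟨δ.comp γ, hδ.comp hγ, by rw [e, e']; rfl⟩

namespace Shape

variable {b : I → P.M J} (S : P.Shape b)

/-- The second representative of an edge generator. -/
def EdgeRep (p : I × P.Word) : Prop :=
  ∃ ε, S.f p.1 = some ε ∧ p.2.1.getLast? = some ⟨ε, P.one ε⟩

open Classical in
/-- Level of a formal basis vector. -/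
noncomputable def lvl (p : I × P.Word) : ℕ :=
  S.d p.1 + p.2.1.length - if S.EdgeRep p then 1 else 0

/-- Block of a formal basis vector. -/
def dir (p : I × P.Word) : Option Bool :=
  match p.2.1 with
  | [] => (S.f p.1).map (!·)
  | h :: _ => some h.1

lemma lvl_nil (i : I) : S.lvl (i, P.nil) = S.d i := by
  classical
  simp [lvl, EdgeRep, nil]

lemma d_le_lvl (p : I × P.Word) : S.d p.1 ≤ S.lvl p := by
  classical
  unfold lvl
  split_ifs with h
  · obtain ⟨ε, -, h2⟩ := h
    have : p.2.1 ≠ [] := fun h => by simp [h] at h2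
    have := List.length_pos_iff.2 this
    omega
  · omega

lemma lvl_edge (i : I) (ε : Bool) (hf : S.f i = some ε)
    (hw : [(⟨ε, P.one ε⟩ : P.Letter)].IsChain P.Ok) : S.lvl (i, ⟨_, hw⟩) = S.d i := by
  classical
  have : S.EdgeRep (i, ⟨_, hw⟩) := ⟨ε, hf, rfl⟩
  simp [lvl, this]

lemma lvl_cons (i : I) (ε : Bool) (τ : P.idx ε) (w : P.Word)
    (hw : (⟨ε, τ⟩ :: w.1 : List P.Letter).IsChain P.Ok)
    (hc : ¬(w.1 = [] ∧ S.f i = some ε ∧ τ = P.one ε)) :
    S.lvl (i, ⟨⟨ε, τ⟩ :: w.1, hw⟩) = S.lvl (i, w) + 1 := by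
  classical
  obtain ⟨_ | ⟨h, l⟩, hl⟩ := w
  · have h1 : ¬ S.EdgeRep (i, ⟨[⟨ε, τ⟩], hw⟩) := by
      rintro ⟨δ, h1, h2⟩
      simp at h2
      obtain ⟨rfl, h2⟩ := h2
      exact hc ⟨rfl, h1, eq_of_heq h2⟩
    have h2 : ¬ S.EdgeRep (i, ⟨[], hl⟩) := by rintro ⟨δ, -, h2⟩; simp at h2
    simp [lvl, h1, h2]
  · have heq : S.EdgeRep (i, ⟨⟨ε, τ⟩ :: h :: l, hw⟩) ↔ S.EdgeRep (i, ⟨h :: l, hl⟩) := by
      simp [EdgeRep, List.getLast?_cons_cons]
    simp only [lvl, heq, List.length_cons]
    split_ifs <;> omega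

/-- The three kinds of formal basis vectors with a block. -/
lemma cases_dir {p : I × P.Word} {ε : Bool} (h : S.dir p = some ε) :
    (p.2.1 = [] ∧ S.f p.1 = some (!ε) ∧ S.lvl p = S.d p.1) ∨
    (p.2.1 = [⟨ε, P.one ε⟩] ∧ S.f p.1 = some ε ∧ S.lvl p = S.d p.1) ∨
    ∃ (τ : P.idx ε) (w : P.Word) (hw : (⟨ε, τ⟩ :: w.1 : List P.Letter).IsChain P.Ok),
      p = (p.1, ⟨⟨ε, τ⟩ :: w.1, hw⟩) ∧ S.lvl p = S.lvl (p.1, w) + 1 := by
  classical
  obtain ⟨i, ⟨_ | ⟨⟨δ, τ⟩, l⟩, hl⟩⟩ := p
  · left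
    refine ⟨rfl, ?_, S.lvl_nil i⟩
    simp only [dir, Option.map_eq_some_iff] at h
    obtain ⟨a, ha, rfl⟩ := h
    rw [ha, Bool.not_not]
  · simp [dir] at h
    subst h
    right
    by_cases hc : l = [] ∧ S.f i = some δ ∧ τ = P.one δ
    · obtain ⟨rfl, hf, rfl⟩ := hc
      exact Or.inl ⟨rfl, hf, S.lvl_edge i δ hf hl⟩
    · exact Or.inr ⟨τ, ⟨l, hl.of_cons⟩, hl, rfl, S.lvl_cons i δ τ ⟨l, hl.of_cons⟩ hl hc⟩

lemma eq_nil_of_dir_none {p : I × P.Word} (h : S.dir p = none) :
    p = (p.1, P.nil) ∧ S.f p.1 = none := by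
  obtain ⟨i, ⟨_ | ⟨h', l⟩, hl⟩⟩ := p
  · simp [dir] at h
    exact ⟨rfl, h⟩
  · simp [dir] at h

lemma bv_spec (p : I × P.Word) :
    P.Below (S.lvl p) (bv b p) ∧ ∀ ε, S.dir p = some ε → P.Pure (S.lvl p) (!ε) (bv b p) := by
  obtain ⟨i, ⟨l, hl⟩⟩ := p
  induction l with
  | nil =>
    rw [show S.lvl (i, ⟨[], hl⟩) = S.d i from S.lvl_nil i]
    refine ⟨S.below i, fun ε hε => S.isPure i _ ?_⟩
    simp only [dir, Option.map_eq_some_iff] at hε
    obtain ⟨a, ha, rfl⟩ := hε
    rw [ha, Bool.not_not]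
  | cons h l ih =>
    obtain ⟨ε, τ⟩ := h
    have hbv : bv b (i, ⟨⟨ε, τ⟩ :: l, hl⟩) = P.T ε (P.bas ε τ • bv b (i, ⟨l, hl.of_cons⟩)) := rfl
    have hdir : S.dir (i, ⟨⟨ε, τ⟩ :: l, hl⟩) = some ε := rfl
    by_cases hc : l = [] ∧ S.f i = some ε ∧ τ = P.one ε
    · obtain ⟨rfl, hf, rfl⟩ := hc
      rw [show S.lvl (i, ⟨[⟨ε, P.one ε⟩], hl⟩) = S.d i from S.lvl_edge i ε hf hl, hbv, P.bas_one,
        one_smul, hdir]
      have hb := S.below i
      have h1 : P.Below (S.d i) (P.T ε (b i)) := (pure_iff hb).1 (S.isPure i ε hf)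
      refine ⟨h1, fun δ hδ => ?_⟩
      cases hδ
      refine (pure_iff h1).2 ?_
      rw [T_T]
      exact hb
    · rw [S.lvl_cons i ε τ ⟨l, hl.of_cons⟩ hl hc, hbv, hdir]
      refine ⟨T_below ((ih hl.of_cons).1.smul _), fun δ hδ => ?_⟩
      cases hδ
      exact T_pure ((ih hl.of_cons).1.smul _)

/-- Supported on one formal level. -/
def At (k : ℕ) (x : P.M I) : Prop := ∀ p, x p ≠ 0 → S.lvl p = k

lemma below_of_le {k : ℕ} {x : P.M I} (h : ∀ p, x p ≠ 0 → S.lvl p ≤ k) :
    P.Below k ((P.ext b).map x) := by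
  rw [← Finsupp.sum_single x, map_finsuppSum]
  refine below_sum _ _ fun p hp => ?_
  dsimp only
  rw [ext_single]
  exact ((S.bv_spec p).1.mono (h p (Finsupp.mem_support_iff.1 hp))).smul _

/-- The only formal vector of generator `i` in a block at the level `d i`. -/
lemma unique_root {i : I} {p p' : I × P.Word} (hi : p.1 = i) (hi' : p'.1 = i)
    (hl : S.lvl p = S.d i) (hl' : S.lvl p' = S.d i) (hd : S.dir p = S.dir p') : p = p' := by
  subst hi
  cases hdir : S.dir p with
  | none =>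
    obtain ⟨e, -⟩ := S.eq_nil_of_dir_none hdir
    obtain ⟨e', -⟩ := S.eq_nil_of_dir_none (hd.symm.trans hdir)
    rw [e, e', hi']
  | some ε =>
    have key : ∀ q : I × P.Word, q.1 = p.1 → S.lvl q = S.d p.1 → S.dir q = some ε →
        q.2.1 = if S.f p.1 = some ε then [⟨ε, P.one ε⟩] else [] := by
      intro q hq hlq hdq
      rcases S.cases_dir hdq with ⟨h1, h2, -⟩ | ⟨h1, h2, -⟩ | ⟨τ, w, hw, -, h2⟩
      · rw [hq] at h2
        rw [h1, if_neg]
        rw [h2]
        simp
      · rw [hq] at h2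
        rw [h1, if_pos h2]
      · have := S.d_le_lvl (q.1, w)
        simp only [hq] at this h2
        omega
    exact Prod.ext hi'.symm (Subtype.ext
      ((key p rfl hl hdir).trans (key p' hi' hl' (hd.symm.trans hdir)).symm))

end Shape

variable [DecidableEq I]

/-- Replacing the generator `i` by `β x` is an invertible move when the generator occurs in `x`
only through one unit multiple. -/
lemma related_update (b : I → P.M J) (x : P.M I) (i : I) (w : P.Word)
    (hw : w.1 = [] ∨ ∃ ε, w.1 = [⟨ε, P.one ε⟩]) (hx : x (i, w) ≠ 0)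
    (huniq : ∀ p, x p ≠ 0 → p.1 = i → p = (i, w)) :
    Related b (Function.update b i ((P.ext b).map x)) := by
  classical
  let e : I → P.M I := fun j => Finsupp.single (j, P.nil) 1
  set c := x (i, w)
  set z := x - Finsupp.single (i, w) c with hz
  let γ : P.Equiv' I I := P.ext (Function.update e i x)
  have hγ : γ.map (Finsupp.single (i, P.nil) 1) = x := by simp [γ, ext_nil]
  have hzfix : γ.map z = z := by
    have : ∀ p ∈ z.support, p.1 ≠ i := by
      intro p hp h
      rw [Finsupp.mem_support_iff, hz, Finsupp.sub_apply] at hp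
      by_cases hpe : p = (i, w)
      · subst hpe; simp [c] at hp
      · rw [Finsupp.single_eq_of_ne hpe, sub_zero] at hp
        exact hpe (huniq p hp h)
    conv_lhs => rw [← Finsupp.sum_single z]
    conv_rhs => rw [← Finsupp.sum_single z]
    rw [map_finsuppSum]
    refine Finsupp.sum_congr fun p hp => ?_
    rw [← mul_one (z p), ← smul_eq_mul, ← Finsupp.smul_single, map_smul]
    congr 1
    exact (Equiv'.agree γ (Equiv'.id P I) p.1
      (by simp [γ, ext_nil, e, this p hp, Equiv'.id]) p.2)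
  obtain ⟨x', hx'⟩ : ∃ x', γ.map x' = Finsupp.single (i, P.nil) 1 := by
    set u := c⁻¹ • (Finsupp.single (i, P.nil) 1 - z) with hu
    have hγu : γ.map u = Finsupp.single (i, w) 1 := by
      rw [hu, map_smul, map_sub, hγ, hzfix, hz, sub_sub_cancel, Finsupp.smul_single,
        smul_eq_mul, inv_mul_cancel₀ hx]
    obtain ⟨wl, hwc⟩ := w
    rcases hw with h | ⟨ε, h⟩
    · subst h
      exact ⟨u, hγu⟩
    · subst h
      refine ⟨P.T (!ε) u, ?_⟩
      have h1 : (Finsupp.single (i, (⟨_, hwc⟩ : P.Word)) 1 : P.M I) =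
          P.T ε (P.bas ε (P.one ε) • Finsupp.single (i, P.nil) 1) :=
        single_cons i ε (P.one ε) P.nil hwc
      rw [γ.map_T, hγu, h1, P.bas_one, one_smul, T_T]
  let γ' : P.Equiv' I I := P.ext (Function.update e i x')
  have hcomp : γ.map.comp γ'.map = LinearMap.id := by
    refine Equiv'.map_eq (γ.comp γ') (Equiv'.id P I) fun j => ?_
    by_cases hj : j = i
    · subst hj
      simp [Equiv'.comp, Equiv'.id, γ', ext_nil, hx']
    · simp [Equiv'.comp, Equiv'.id, γ', γ, ext_nil, e, hj]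
  refine ⟨γ', fun a a' h => ?_, ?_⟩
  · have := congrArg γ.map h
    simpa [← LinearMap.comp_apply, hcomp] using this
  · have h2 : (P.ext (Function.update b i ((P.ext b).map x))).map = (P.ext b).map.comp γ.map := by
      refine Equiv'.map_eq _ ((P.ext b).comp γ) fun j => ?_
      by_cases hj : j = i
      · subst hj; simp [Equiv'.comp, γ, ext_nil]
      · simp [Equiv'.comp, γ, ext_nil, e, hj]
    rw [h2, LinearMap.comp_assoc, hcomp, LinearMap.comp_id]

end Datum

end Vale.Agent.HNNAlg
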